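import Mathlib
import Crest.Prelude.Def_QuadricHamiltonian

set_option autoImplicit false

namespace Crest.Agent.H0316

open Crest.GeometryTopology.Quadric

abbrev E := Fin 5 → ℂ

/-- signed coordinate permutation -/
noncomputable def mk (σ : Fin 5 → Fin 5) (e : Fin 5 → ℝ) : E →L[ℝ] E :=
  ContinuousLinearMap.pi fun j => e j • ContinuousLinearMap.proj (σ j)

lemma mk_apply (σ : Fin 5 → Fin 5) (e : Fin 5 → ℝ) (z : E) (j : Fin 5) :
    mk σ e z j = (e j : ℂ) * z (σ j) := by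
  simp [mk]

noncomputable def P : E →L[ℝ] E := mk ![0, 1, 2, 3, 4] ![1, 1, 1, 1, 0]
noncomputable def L1 : E →L[ℝ] E := mk ![1, 0, 3, 2, 4] ![-1, 1, -1, 1, 0]
noncomputable def L2 : E →L[ℝ] E := mk ![2, 3, 0, 1, 4] ![-1, 1, 1, -1, 0]
noncomputable def L3 : E →L[ℝ] E := mk ![3, 2, 1, 0, 4] ![-1, -1, 1, 1, 0]
noncomputable def R1 : E →L[ℝ] E := mk ![1, 0, 3, 2, 4] ![-1, 1, 1, -1, 0]
noncomputable def R2 : E →L[ℝ] E := mk ![2, 3, 0, 1, 4] ![-1, -1, 1, 1, 0]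
/-- minus right multiplication by k -/
noncomputable def R3 : E →L[ℝ] E := mk ![3, 2, 1, 0, 4] ![1, -1, 1, -1, 0]

section
variable (z : E)
@[simp] lemma P_0 : P z 0 = z 0 := by simp [P, mk_apply]
@[simp] lemma P_1 : P z 1 = z 1 := by simp [P, mk_apply]
@[simp] lemma P_2 : P z 2 = z 2 := by simp [P, mk_apply]
@[simp] lemma P_3 : P z 3 = z 3 := by simp [P, mk_apply]
@[simp] lemma P_4 : P z 4 = 0 := by simp [P, mk_apply]
@[simp] lemma L1_0 : L1 z 0 = -z 1 := by simp [L1, mk_apply]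
@[simp] lemma L1_1 : L1 z 1 = z 0 := by simp [L1, mk_apply]
@[simp] lemma L1_2 : L1 z 2 = -z 3 := by simp [L1, mk_apply]
@[simp] lemma L1_3 : L1 z 3 = z 2 := by simp [L1, mk_apply]
@[simp] lemma L1_4 : L1 z 4 = 0 := by simp [L1, mk_apply]
@[simp] lemma L2_0 : L2 z 0 = -z 2 := by simp [L2, mk_apply]
@[simp] lemma L2_1 : L2 z 1 = z 3 := by simp [L2, mk_apply]
@[simp] lemma L2_2 : L2 z 2 = z 0 := by simp [L2, mk_apply]
@[simp] lemma L2_3 : L2 z 3 = -z 1 := by simp [L2, mk_apply]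
@[simp] lemma L2_4 : L2 z 4 = 0 := by simp [L2, mk_apply]
@[simp] lemma L3_0 : L3 z 0 = -z 3 := by simp [L3, mk_apply]
@[simp] lemma L3_1 : L3 z 1 = -z 2 := by simp [L3, mk_apply]
@[simp] lemma L3_2 : L3 z 2 = z 1 := by simp [L3, mk_apply]
@[simp] lemma L3_3 : L3 z 3 = z 0 := by simp [L3, mk_apply]
@[simp] lemma L3_4 : L3 z 4 = 0 := by simp [L3, mk_apply]
@[simp] lemma R1_0 : R1 z 0 = -z 1 := by simp [R1, mk_apply]
@[simp] lemma R1_1 : R1 z 1 = z 0 := by simp [R1, mk_apply]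
@[simp] lemma R1_2 : R1 z 2 = z 3 := by simp [R1, mk_apply]
@[simp] lemma R1_3 : R1 z 3 = -z 2 := by simp [R1, mk_apply]
@[simp] lemma R1_4 : R1 z 4 = 0 := by simp [R1, mk_apply]
@[simp] lemma R2_0 : R2 z 0 = -z 2 := by simp [R2, mk_apply]
@[simp] lemma R2_1 : R2 z 1 = -z 3 := by simp [R2, mk_apply]
@[simp] lemma R2_2 : R2 z 2 = z 0 := by simp [R2, mk_apply]
@[simp] lemma R2_3 : R2 z 3 = z 1 := by simp [R2, mk_apply]
@[simp] lemma R2_4 : R2 z 4 = 0 := by simp [R2, mk_apply]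
@[simp] lemma R3_0 : R3 z 0 = z 3 := by simp [R3, mk_apply]
@[simp] lemma R3_1 : R3 z 1 = -z 2 := by simp [R3, mk_apply]
@[simp] lemma R3_2 : R3 z 2 = z 1 := by simp [R3, mk_apply]
@[simp] lemma R3_3 : R3 z 3 = -z 0 := by simp [R3, mk_apply]
@[simp] lemma R3_4 : R3 z 4 = 0 := by simp [R3, mk_apply]
end

/-- rotation with cosine `c` and sine `s` -/
noncomputable def rt (A : E →L[ℝ] E) (c s : ℝ) (z : E) : E := z + (c - 1) • P z + s • A z

lemma rt_apply (A : E →L[ℝ] E) (c s : ℝ) (z : E) (j : Fin 5) :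
    rt A c s z j = z j + ((c : ℂ) - 1) * P z j + (s : ℂ) * A z j := by
  simp [rt]

noncomputable def rot (A : E →L[ℝ] E) (θ : ℝ) (z : E) : E := rt A (Real.cos θ) (Real.sin θ) z

/-- moment map -/
noncomputable def mu (A : E →L[ℝ] E) (z : E) : ℝ := (herm (A z) z).im

lemma herm_im (u w : E) : (herm u w).im =
    ((u 0).re * (w 0).im - (u 0).im * (w 0).re) + ((u 1).re * (w 1).im - (u 1).im * (w 1).re) +
    ((u 2).re * (w 2).im - (u 2).im * (w 2).re) + ((u 3).re * (w 3).im - (u 3).im * (w 3).re) +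
    ((u 4).re * (w 4).im - (u 4).im * (w 4).re) := by
  simp [herm, Fin.sum_univ_five]; ring

lemma herm_re (u w : E) : (herm u w).re =
    ((u 0).re * (w 0).re + (u 0).im * (w 0).im) + ((u 1).re * (w 1).re + (u 1).im * (w 1).im) +
    ((u 2).re * (w 2).re + (u 2).im * (w 2).im) + ((u 3).re * (w 3).re + (u 3).im * (w 3).im) +
    ((u 4).re * (w 4).re + (u 4).im * (w 4).im) := by
  simp [herm, Fin.sum_univ_five]

/-- real form of cone membership -/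
lemma mem_cone_iff (z : E) : z ∈ unitCone ↔
    ((z 0).re ^ 2 + (z 0).im ^ 2 + (z 1).re ^ 2 + (z 1).im ^ 2 + (z 2).re ^ 2 + (z 2).im ^ 2 +
      (z 3).re ^ 2 + (z 3).im ^ 2 + (z 4).re ^ 2 + (z 4).im ^ 2 = 1) ∧
    ((z 0).re ^ 2 - (z 0).im ^ 2 + (z 1).re ^ 2 - (z 1).im ^ 2 + (z 2).re ^ 2 - (z 2).im ^ 2 +
      (z 3).re ^ 2 - (z 3).im ^ 2 + (z 4).re ^ 2 - (z 4).im ^ 2 = 0) ∧
    ((z 0).re * (z 0).im + (z 1).re * (z 1).im + (z 2).re * (z 2).im + (z 3).re * (z 3).im +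
      (z 4).re * (z 4).im = 0) := by
  have h1 : herm z z = 1 ↔ (herm z z).re = 1 := by
    constructor
    · intro h; rw [h]; simp
    · intro h; apply Complex.ext
      · simpa using h
      · rw [herm_im]; simp; ring
  have h2 : (∑ j, z j ^ 2 = 0) ↔ ((∑ j, z j ^ 2).re = 0 ∧ (∑ j, z j ^ 2).im = 0) := by
    rw [Complex.ext_iff]; simp
  have h0 : z ∈ unitCone ↔ (herm z z = 1 ∧ ∑ j, z j ^ 2 = 0) := Iff.rfl
  rw [h0, h1, h2]
  simp only [herm_re, Fin.sum_univ_five, pow_two,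
    Complex.add_re, Complex.add_im, Complex.mul_re, Complex.mul_im]
  constructor
  · rintro ⟨a, b, c⟩; exact ⟨by linarith, by linarith, by linarith⟩
  · rintro ⟨a, b, c⟩; exact ⟨by linarith, by linarith, by linarith⟩

/-- the four generators used -/
def IsG (A : E →L[ℝ] E) : Prop := A = L1 ∨ A = L2 ∨ A = R1 ∨ A = R2

lemma rt_mem_cone {A : E →L[ℝ] E} (hA : IsG A) {c s : ℝ} (h : c ^ 2 + s ^ 2 = 1) {z : E}
    (hz : z ∈ unitCone) : rt A c s z ∈ unitCone := by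
  rw [mem_cone_iff] at hz ⊢
  obtain ⟨h1, h2, h3⟩ := hz
  rcases hA with rfl | rfl | rfl | rfl <;>
  · simp only [rt_apply]
    simp
    refine ⟨?_, ?_, ?_⟩
    · linear_combination h1 + ((z 0).re ^ 2 + (z 0).im ^ 2 + (z 1).re ^ 2 + (z 1).im ^ 2 +
        (z 2).re ^ 2 + (z 2).im ^ 2 + (z 3).re ^ 2 + (z 3).im ^ 2) * h
    · linear_combination h2 + ((z 0).re ^ 2 - (z 0).im ^ 2 + (z 1).re ^ 2 - (z 1).im ^ 2 +
        (z 2).re ^ 2 - (z 2).im ^ 2 + (z 3).re ^ 2 - (z 3).im ^ 2) * h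
    · linear_combination h3 + ((z 0).re * (z 0).im + (z 1).re * (z 1).im + (z 2).re * (z 2).im +
        (z 3).re * (z 3).im) * h

lemma rot_mem_cone {A : E →L[ℝ] E} (hA : IsG A) (θ : ℝ) {z : E}
    (hz : z ∈ unitCone) : rot A θ z ∈ unitCone :=
  rt_mem_cone hA (Real.cos_sq_add_sin_sq θ) hz

lemma mk_smul (σ : Fin 5 → Fin 5) (e : Fin 5 → ℝ) (c : ℂ) (z : E) :
    mk σ e (c • z) = c • mk σ e z := by
  ext j; simp [mk_apply]; ring

lemma IsG.smul {A : E →L[ℝ] E} (hA : IsG A) (c : ℂ) (z : E) : A (c • z) = c • A z := by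
  rcases hA with rfl | rfl | rfl | rfl <;> exact mk_smul _ _ _ _

lemma rot_smul {A : E →L[ℝ] E} (hA : IsG A) (θ : ℝ) (c : ℂ) (z : E) :
    rot A θ (c • z) = c • rot A θ z := by
  have hP : P (c • z) = c • P z := mk_smul _ _ _ _
  ext j
  simp only [rot, rt_apply, hA.smul, hP, Pi.smul_apply, smul_eq_mul]
  ring

lemma herm_smul_smul (c : ℂ) (u w : E) :
    herm (c • u) (c • w) = ((‖c‖ ^ 2 : ℝ) : ℂ) * herm u w := by
  have : ((‖c‖ ^ 2 : ℝ) : ℂ) = starRingEnd ℂ c * c := by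
    rw [mul_comm, Complex.mul_conj, Complex.normSq_eq_norm_sq]
  rw [this]
  simp [herm, Fin.sum_univ_five]; ring

lemma mu_mk_smul (σ : Fin 5 → Fin 5) (e : Fin 5 → ℝ) {c : ℂ} (hc : ‖c‖ = 1) (z : E) :
    mu (mk σ e) (c • z) = mu (mk σ e) z := by
  simp [mu, mk_smul, herm_smul_smul, hc]

lemma mu_smul {A : E →L[ℝ] E} (hA : IsG A) {c : ℂ} (hc : ‖c‖ = 1) (z : E) :
    mu A (c • z) = mu A z := by
  rcases hA with rfl | rfl | rfl | rfl <;> exact mu_mk_smul _ _ hc _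

@[simp] lemma rot_zero (A : E →L[ℝ] E) (z : E) : rot A 0 z = z := by simp [rot, rt]

lemma rot_4 {A : E →L[ℝ] E} (hA : IsG A) (θ : ℝ) (z : E) : rot A θ z 4 = z 4 := by
  rcases hA with rfl | rfl | rfl | rfl <;> simp [rot, rt_apply]

/-! transformation of the moment maps -/
section
variable (c s : ℝ) (z : E)

lemma mu_L1_L1 : mu L1 (rt L1 c s z) = (c ^ 2 + s ^ 2) * mu L1 z := by
  simp [mu, herm_im, rt_apply]; ring
lemma mu_L2_L1 : mu L2 (rt L1 c s z) = (c ^ 2 - s ^ 2) * mu L2 z - 2 * c * s * mu L3 z := by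
  simp [mu, herm_im, rt_apply]; ring
lemma mu_L3_L1 : mu L3 (rt L1 c s z) = (c ^ 2 - s ^ 2) * mu L3 z + 2 * c * s * mu L2 z := by
  simp [mu, herm_im, rt_apply]; ring
lemma mu_R1_L1 : mu R1 (rt L1 c s z) = (c ^ 2 + s ^ 2) * mu R1 z := by
  simp [mu, herm_im, rt_apply]; ring
lemma mu_R2_L1 : mu R2 (rt L1 c s z) = (c ^ 2 + s ^ 2) * mu R2 z := by
  simp [mu, herm_im, rt_apply]; ring
lemma mu_R3_L1 : mu R3 (rt L1 c s z) = (c ^ 2 + s ^ 2) * mu R3 z := by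
  simp [mu, herm_im, rt_apply]; ring

lemma mu_L1_L2 : mu L1 (rt L2 c s z) = (c ^ 2 - s ^ 2) * mu L1 z + 2 * c * s * mu L3 z := by
  simp [mu, herm_im, rt_apply]; ring
lemma mu_L2_L2 : mu L2 (rt L2 c s z) = (c ^ 2 + s ^ 2) * mu L2 z := by
  simp [mu, herm_im, rt_apply]; ring
lemma mu_L3_L2 : mu L3 (rt L2 c s z) = (c ^ 2 - s ^ 2) * mu L3 z - 2 * c * s * mu L1 z := by
  simp [mu, herm_im, rt_apply]; ring
lemma mu_R1_L2 : mu R1 (rt L2 c s z) = (c ^ 2 + s ^ 2) * mu R1 z := by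
  simp [mu, herm_im, rt_apply]; ring
lemma mu_R2_L2 : mu R2 (rt L2 c s z) = (c ^ 2 + s ^ 2) * mu R2 z := by
  simp [mu, herm_im, rt_apply]; ring
lemma mu_R3_L2 : mu R3 (rt L2 c s z) = (c ^ 2 + s ^ 2) * mu R3 z := by
  simp [mu, herm_im, rt_apply]; ring

lemma mu_L1_R1 : mu L1 (rt R1 c s z) = (c ^ 2 + s ^ 2) * mu L1 z := by
  simp [mu, herm_im, rt_apply]; ring
lemma mu_L2_R1 : mu L2 (rt R1 c s z) = (c ^ 2 + s ^ 2) * mu L2 z := by
  simp [mu, herm_im, rt_apply]; ring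
lemma mu_L3_R1 : mu L3 (rt R1 c s z) = (c ^ 2 + s ^ 2) * mu L3 z := by
  simp [mu, herm_im, rt_apply]; ring
lemma mu_R1_R1 : mu R1 (rt R1 c s z) = (c ^ 2 + s ^ 2) * mu R1 z := by
  simp [mu, herm_im, rt_apply]; ring
lemma mu_R2_R1 : mu R2 (rt R1 c s z) = (c ^ 2 - s ^ 2) * mu R2 z - 2 * c * s * mu R3 z := by
  simp [mu, herm_im, rt_apply]; ring
lemma mu_R3_R1 : mu R3 (rt R1 c s z) = (c ^ 2 - s ^ 2) * mu R3 z + 2 * c * s * mu R2 z := by
  simp [mu, herm_im, rt_apply]; ring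

lemma mu_L1_R2 : mu L1 (rt R2 c s z) = (c ^ 2 + s ^ 2) * mu L1 z := by
  simp [mu, herm_im, rt_apply]; ring
lemma mu_L2_R2 : mu L2 (rt R2 c s z) = (c ^ 2 + s ^ 2) * mu L2 z := by
  simp [mu, herm_im, rt_apply]; ring
lemma mu_L3_R2 : mu L3 (rt R2 c s z) = (c ^ 2 + s ^ 2) * mu L3 z := by
  simp [mu, herm_im, rt_apply]; ring
lemma mu_R1_R2 : mu R1 (rt R2 c s z) = (c ^ 2 - s ^ 2) * mu R1 z + 2 * c * s * mu R3 z := by
  simp [mu, herm_im, rt_apply]; ring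
lemma mu_R2_R2 : mu R2 (rt R2 c s z) = (c ^ 2 + s ^ 2) * mu R2 z := by
  simp [mu, herm_im, rt_apply]; ring
lemma mu_R3_R2 : mu R3 (rt R2 c s z) = (c ^ 2 - s ^ 2) * mu R3 z - 2 * c * s * mu R1 z := by
  simp [mu, herm_im, rt_apply]; ring
end

lemma abs_mu_le {A : E →L[ℝ] E} (hA : IsG A) {z : E} (hz : z ∈ unitCone) : |mu A z| ≤ 1 := by
  rw [mem_cone_iff] at hz
  obtain ⟨h1, -, -⟩ := hz
  rw [abs_le]
  rcases hA with rfl | rfl | rfl | rfl <;>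
  · simp [mu, herm_im]
    constructor <;>
    nlinarith [sq_nonneg ((z 0).re + (z 1).im), sq_nonneg ((z 0).re - (z 1).im),
      sq_nonneg ((z 1).re + (z 0).im), sq_nonneg ((z 1).re - (z 0).im),
      sq_nonneg ((z 2).re + (z 3).im), sq_nonneg ((z 2).re - (z 3).im),
      sq_nonneg ((z 3).re + (z 2).im), sq_nonneg ((z 3).re - (z 2).im),
      sq_nonneg ((z 0).re + (z 2).im), sq_nonneg ((z 0).re - (z 2).im),
      sq_nonneg ((z 2).re + (z 0).im), sq_nonneg ((z 2).re - (z 0).im),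
      sq_nonneg ((z 1).re + (z 3).im), sq_nonneg ((z 1).re - (z 3).im),
      sq_nonneg ((z 3).re + (z 1).im), sq_nonneg ((z 3).re - (z 1).im),
      sq_nonneg (z 4).re, sq_nonneg (z 4).im]

end Crest.Agent.H0316
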