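import Mathlib

set_option autoImplicit false

namespace Crest.Agent.H0316

open Real

/-- the small angle -/
noncomputable def ang (u v : ℝ) : ℝ := (u - 1) * (1 / (1 + (v / 4) ^ 2) * (1 / 4))

/-- the fixed point system -/
def Sys (p q r s : ℝ) : Prop :=
  q * s / 4 = p * tan (ang r q) ∧ q * s / 4 = r * tan (ang p s) ∧
  p ^ 2 + q ^ 2 + (q * s / 4) ^ 2 = 1 ∧ r ^ 2 + s ^ 2 + (q * s / 4) ^ 2 = 1

lemma tan_sub_le {a b : ℝ} (ha : 0 ≤ a) (hab : a ≤ b) (hb : b ≤ 1 / 2) :
    tan b - tan a ≤ 4 / 3 * (b - a) := by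
  have ca : 7 / 8 ≤ cos a := by nlinarith [one_sub_sq_div_two_le_cos (x := a)]
  have cb : 7 / 8 ≤ cos b := by nlinarith [one_sub_sq_div_two_le_cos (x := b)]
  have h : tan b - tan a = sin (b - a) / (cos a * cos b) := by
    rw [tan_eq_sin_div_cos, tan_eq_sin_div_cos, sin_sub]
    field_simp
  rw [h, div_le_iff₀ (by positivity)]
  have h1 : sin (b - a) ≤ b - a := sin_le (by linarith)
  have h2 : 49 / 64 ≤ cos a * cos b := by nlinarith
  nlinarith

lemma half_lt : (1 : ℝ) / 2 < π / 2 := by linarith [pi_gt_three]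

/-- the positive version of the angle -/
noncomputable def k (v : ℝ) : ℝ := 1 / (1 + (v / 4) ^ 2) * (1 / 4)

lemma k_pos (v : ℝ) : 0 < k v := by unfold k; positivity
lemma k_le (v : ℝ) : k v ≤ 1 / 4 := by
  unfold k
  have : 1 / (1 + (v / 4) ^ 2) ≤ 1 := by
    rw [div_le_one (by positivity)]; nlinarith [sq_nonneg (v / 4)]
  linarith
lemma k_lt {v w : ℝ} (h : v ^ 2 < w ^ 2) : k w < k v := by
  unfold k
  have : 1 / (1 + (w / 4) ^ 2) < 1 / (1 + (v / 4) ^ 2) :=
    one_div_lt_one_div_of_lt (by positivity) (by nlinarith)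
  linarith

lemma tan_ang (u v : ℝ) : tan (ang u v) = -tan ((1 - u) * k v) := by
  rw [← tan_neg]; congr 1; unfold ang k; ring

lemma abs_ang_le {u : ℝ} (v : ℝ) (h : |u| ≤ 1) : |ang u v| ≤ 1 / 2 := by
  have h1 := k_pos v
  have h2 := k_le v
  have : ang u v = (u - 1) * k v := rfl
  rw [this, abs_le]
  rw [abs_le] at h
  constructor <;> nlinarith

lemma tan_mono {a b : ℝ} (ha : 0 ≤ a) (hab : a < b) (hb : b ≤ 1 / 2) : tan a < tan b :=
  tan_lt_tan_of_nonneg_of_lt_pi_div_two ha (by linarith [half_lt]) hab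

lemma tan_pos' {a : ℝ} (ha : 0 < a) (hb : a ≤ 1 / 2) : 0 < tan a := by
  simpa using tan_mono le_rfl ha hb

/-- key monotonicity -/
lemma key_mono {c P R : ℝ} (hc : 0 < c) (hc' : c ≤ 1 / 4) (hR : 0 < R) (hRP : R < P)
    (hP : P ≤ 1) : R * tan ((1 + P) * c) < P * tan ((1 + R) * c) := by
  have h1 := tan_sub_le (a := (1 + R) * c) (b := (1 + P) * c) (by positivity) (by nlinarith)
    (by nlinarith)
  have h2 : (1 + R) * c ≤ tan ((1 + R) * c) :=
    le_tan (by positivity) (by nlinarith [half_lt])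
  have h3 : 0 < (P - R) * c := mul_pos (by linarith) hc
  have h4 : R * (tan ((1 + P) * c) - tan ((1 + R) * c)) ≤ R * (4 / 3 * ((P - R) * c)) := by
    apply mul_le_mul_of_nonneg_left _ hR.le
    linarith
  have h5 : (P - R) * ((1 + R) * c) ≤ (P - R) * tan ((1 + R) * c) :=
    mul_le_mul_of_nonneg_left h2 (by linarith)
  nlinarith

lemma sys_symm {p q r s : ℝ} (h : Sys p q r s) : Sys r s p q := by
  obtain ⟨h1, h2, h3, h4⟩ := h
  refine ⟨by linarith, by linarith, by linarith, by linarith⟩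

lemma sys_neg {p q r s : ℝ} (h : Sys p q r s) : Sys p (-q) r (-s) := by
  obtain ⟨h1, h2, h3, h4⟩ := h
  have e1 : ang r (-q) = ang r q := by unfold ang; ring
  have e2 : ang p (-s) = ang p s := by unfold ang; ring
  refine ⟨by rw [e1]; linarith, by rw [e2]; linarith, by linarith, by linarith⟩

lemma sys_one {q r s : ℝ} (h : Sys 1 q r s) : q = 0 ∧ r = 1 ∧ s = 0 := by
  obtain ⟨h1, h2, h3, h4⟩ := h
  have hq : q = 0 := by nlinarith [sq_nonneg q, sq_nonneg (q * s / 4)]
  subst hq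
  have hr : r ≤ 1 := by nlinarith [sq_nonneg s]
  have hr' : -1 ≤ r := by nlinarith [sq_nonneg s]
  have hr1 : r = 1 := by
    by_contra hne
    have : r < 1 := lt_of_le_of_ne hr hne
    have h5 := tan_pos' (a := (1 - r) * k 0) (mul_pos (by linarith) (k_pos _))
      (by nlinarith [k_pos 0, k_le 0])
    rw [tan_ang] at h1
    linarith
  subst hr1
  exact ⟨rfl, rfl, by nlinarith [sq_nonneg s]⟩

lemma key_sym {p q r s : ℝ} (hp2 : -1 ≤ p) (hrneg : r < 0) (hlt : p < r)
    (e1 : p ^ 2 + q ^ 2 = r ^ 2 + s ^ 2)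
    (e2 : p * tan ((1 - r) * k q) = r * tan ((1 - p) * k s)) : False := by
  have b1 : q ^ 2 < s ^ 2 := by nlinarith
  have b2 := k_lt b1
  have b3 := key_mono (c := k q) (P := -p) (R := -r) (k_pos q) (k_le q) (by linarith)
    (by linarith) (by linarith)
  have b4 : tan ((1 - p) * k s) < tan ((1 - p) * k q) :=
    tan_mono (mul_pos (by linarith) (k_pos s)).le (by nlinarith) (by nlinarith [k_le q, k_pos q])
  simp only [← sub_eq_add_neg] at b3
  nlinarith

lemma case_pos {p q r s U V : ℝ} (hpos : 0 < p) (hrpos : 0 < r) (hp3 : p < 1) (hr3 : r < 1)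
    (V0 : 0 < V) (U1 : U ≤ (1 - r) / 3) (V1 : V ≤ (1 - p) / 3)
    (h1 : q * s / 4 = p * -U) (h2 : q * s / 4 = r * -V)
    (h3 : p ^ 2 + q ^ 2 + (q * s / 4) ^ 2 = 1) (h4 : r ^ 2 + s ^ 2 + (q * s / 4) ^ 2 = 1) :
    False := by
  have hq1 : q ^ 2 ≤ 1 := by nlinarith [sq_nonneg p, sq_nonneg (q * s / 4)]
  have hs1 : s ^ 2 ≤ 1 := by nlinarith [sq_nonneg r, sq_nonneg (q * s / 4)]
  have a1 : 1 - p ^ 2 ≤ 17 / 16 * q ^ 2 := by nlinarith [sq_nonneg q]
  have a2 : 1 - r ^ 2 ≤ 17 / 16 * s ^ 2 := by nlinarith [sq_nonneg s]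
  have a3 : (1 - p ^ 2) * (1 - r ^ 2) ≤ (17 / 16 * q ^ 2) * (17 / 16 * s ^ 2) :=
    mul_le_mul a1 a2 (by nlinarith) (by positivity)
  have a4 : (q * s / 4) ^ 2 = (p * r) * (U * V) := by
    rw [pow_two]; nth_rewrite 1 [h1]; rw [h2]; ring
  have a5 : U * V ≤ (1 - r) / 3 * ((1 - p) / 3) :=
    mul_le_mul U1 V1 V0.le (by linarith)
  have a6 : 0 < p * r := mul_pos hpos hrpos
  have a7 : (p * r) * (U * V) ≤ (p * r) * ((1 - r) / 3 * ((1 - p) / 3)) :=
    mul_le_mul_of_nonneg_left a5 a6.le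
  have a8 : 0 < (1 - p) * (1 - r) := mul_pos (by linarith) (by linarith)
  have a9 : 4 * (p * r) ≤ (1 + p) * (1 + r) := by nlinarith
  have a10 : (1 - p) * (1 - r) * (4 * (p * r)) ≤ (1 - p) * (1 - r) * ((1 + p) * (1 + r)) :=
    mul_le_mul_of_nonneg_left a9 a8.le
  have a11 : 0 < (1 - p) * (1 - r) * (p * r) := mul_pos a8 a6
  nlinarith

/-- in the generic case the solution is symmetric with negative `p` -/
lemma sys_generic {p q r s : ℝ} (h : Sys p q r s) (hp : p ≠ 1) :
    p < 0 ∧ r = p ∧ s = q ∧ q ≠ 0 := by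
  have hr : r ≠ 1 := by
    rintro rfl
    exact hp (sys_one (sys_symm h)).2.1
  obtain ⟨h1, h2, h3, h4⟩ := h
  have hp1 : p ≤ 1 := by nlinarith [sq_nonneg q, sq_nonneg (q * s / 4)]
  have hp2 : -1 ≤ p := by nlinarith [sq_nonneg q, sq_nonneg (q * s / 4)]
  have hr1 : r ≤ 1 := by nlinarith [sq_nonneg s, sq_nonneg (q * s / 4)]
  have hr2 : -1 ≤ r := by nlinarith [sq_nonneg s, sq_nonneg (q * s / 4)]
  have hp3 : p < 1 := lt_of_le_of_ne hp1 hp
  have hr3 : r < 1 := lt_of_le_of_ne hr1 hr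
  rw [tan_ang] at h1 h2
  have kq := k_pos q
  have kq' := k_le q
  have ks := k_pos s
  have ks' := k_le s
  set U := tan ((1 - r) * k q) with hU
  set V := tan ((1 - p) * k s) with hV
  have U0 : 0 < U := tan_pos' (mul_pos (by linarith) kq) (by nlinarith)
  have V0 : 0 < V := tan_pos' (mul_pos (by linarith) ks) (by nlinarith)
  have hpneg : p < 0 := by
    by_contra hcon
    push Not at hcon
    rcases hcon.eq_or_lt with h0 | hpos
    · subst h0
      have hqs : q * s = 0 := by linarith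
      have hr0 : r = 0 := by
        have : r * V = 0 := by linarith
        rcases mul_eq_zero.1 this with h | h
        · exact h
        · linarith
      subst hr0
      have hq : q ^ 2 = 1 := by rw [hqs] at h3; linarith
      have hs : s ^ 2 = 1 := by rw [hqs] at h4; linarith
      have : (q * s) ^ 2 = 1 := by rw [mul_pow, hq, hs]; norm_num
      rw [hqs] at this; norm_num at this
    · have hrpos : 0 < r := by
        have : 0 < r * V := by nlinarith [mul_pos hpos U0]
        exact (pos_iff_pos_of_mul_pos this).2 V0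
      have U1 : U ≤ (1 - r) / 3 := by
        have := tan_sub_le (a := 0) (b := (1 - r) * k q) le_rfl
          (mul_pos (by linarith) kq).le (by nlinarith)
        simp only [tan_zero, sub_zero] at this
        nlinarith
      have V1 : V ≤ (1 - p) / 3 := by
        have := tan_sub_le (a := 0) (b := (1 - p) * k s) le_rfl
          (mul_pos (by linarith) ks).le (by nlinarith)
        simp only [tan_zero, sub_zero] at this
        nlinarith
      exact case_pos hpos hrpos hp3 hr3 V0 U1 V1 h1 h2 h3 h4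
  have hqs : 0 < q * s := by nlinarith [mul_pos (neg_pos.2 hpneg) U0]
  have hrneg : r < 0 := by
    have : 0 < (-r) * V := by linarith
    have := (pos_iff_pos_of_mul_pos this).2 V0
    linarith
  have hrp : r = p := by
    rcases lt_trichotomy p r with h | h | h
    · exact (key_sym (q := q) (s := s) hp2 hrneg h (by linarith) (by linarith)).elim
    · exact h.symm
    · exact (key_sym (q := s) (s := q) hr2 hpneg h (by linarith) (by linarith)).elim
  refine ⟨hpneg, hrp, ?_, ?_⟩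
  · have : (s - q) * (s + q) = 0 := by subst hrp; nlinarith
    rcases mul_eq_zero.1 this with h | h
    · linarith
    · have : s = -q := by linarith
      subst this; nlinarith [sq_nonneg q]
  · rintro rfl; simp at hqs

lemma sys_unique {p q p' q' : ℝ} (h : Sys p q p q) (h' : Sys p' q' p' q') (hp : p < 0)
    (hp' : p' < 0) : p = p' ∧ q ^ 2 = q' ^ 2 := by
  have key : ∀ {p q p' q' : ℝ}, Sys p q p q → Sys p' q' p' q' → p' < 0 → p < p' → False := by
    intro p q p' q' h h' hp' hlt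
    obtain ⟨h1, -, h3, -⟩ := h
    obtain ⟨h1', -, h3', -⟩ := h'
    rw [tan_ang] at h1 h1'
    have hp2 : -1 ≤ p := by nlinarith [sq_nonneg q, sq_nonneg (q * q / 4)]
    have b1 : q ^ 2 < q' ^ 2 := by
      by_contra hcon
      push Not at hcon
      have : (q' * q' / 4) ^ 2 ≤ (q * q / 4) ^ 2 := by
        apply pow_le_pow_left₀ (by nlinarith [sq_nonneg q'])
        nlinarith
      nlinarith
    have b2 := k_lt b1
    have b4 : tan ((1 - p') * k q') < tan ((1 - p) * k q) :=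
      tan_mono (mul_pos (by linarith) (k_pos q')).le (by nlinarith [k_pos q'])
        (by nlinarith [k_le q, k_pos q])
    have b5 : 0 < tan ((1 - p') * k q') :=
      tan_pos' (mul_pos (by linarith) (k_pos q')) (by nlinarith [k_le q', k_pos q'])
    nlinarith
  have hpp : p = p' := by
    rcases lt_trichotomy p p' with h1 | h1 | h1
    · exact (key h h' hp' h1).elim
    · exact h1
    · exact (key h' h hp h1).elim
  subst hpp
  refine ⟨rfl, ?_⟩
  obtain ⟨-, -, h3, -⟩ := h
  obtain ⟨-, -, h3', -⟩ := h'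
  have : (q ^ 2 - q' ^ 2) * (1 + (q ^ 2 + q' ^ 2) / 16) = 0 := by nlinarith
  rcases mul_eq_zero.1 this with h | h
  · linarith
  · nlinarith [sq_nonneg q, sq_nonneg q']

lemma sys_exists : ∃ p q : ℝ, p < 0 ∧ 0 < q ∧ p + q ≠ 0 ∧ Sys p q p q := by
  let Pf : ℝ → ℝ := fun q => √(1 - q ^ 2 - (q * q / 4) ^ 2)
  let G : ℝ → ℝ := fun q => q * q / 4 - Pf q * tan ((1 + Pf q) * k q)
  have hP0 : ∀ q, 0 ≤ Pf q := fun q => sqrt_nonneg _
  have hP1 : ∀ q, Pf q ≤ 1 := fun q => by
    apply sqrt_le_one.2; nlinarith [sq_nonneg q, sq_nonneg (q * q / 4)]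
  have cP : Continuous Pf := by fun_prop
  have ck : Continuous k := by
    unfold k
    exact (continuous_const.div (by fun_prop) (fun x => by positivity)).mul continuous_const
  have cG : Continuous G := by
    refine Continuous.sub (by fun_prop) (cP.mul ?_)
    rw [continuous_iff_continuousAt]
    intro q
    refine ContinuousAt.comp (f := fun q => (1 + Pf q) * k q) (continuousAt_tan.2 ?_)
      ((continuous_const.add cP).mul ck).continuousAt
    apply ne_of_gt
    apply cos_pos_of_mem_Ioo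
    have := hP0 q; have := hP1 q; have := k_pos q; have := k_le q
    constructor <;> nlinarith [half_lt]
  have G0 : G 0 < 0 := by
    have : Pf 0 = 1 := by simp [Pf]
    have h2 : 0 < tan ((1 + 1) * k 0) := tan_pos' (by linarith [k_pos 0]) (by linarith [k_le 0])
    simp only [G, this]; norm_num; norm_num at h2; exact h2
  have G1 : 0 < G 1 := by
    have : Pf 1 = 0 := by
      apply sqrt_eq_zero'.2; norm_num
    simp only [G, this]; norm_num
  obtain ⟨q, hq, hGq⟩ := intermediate_value_Icc (zero_le_one' ℝ) cG.continuousOn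
    (show (0 : ℝ) ∈ Set.Icc (G 0) (G 1) from ⟨G0.le, G1.le⟩)
  have hq0 : 0 < q := by
    rcases hq.1.eq_or_lt with h | h
    · subst h; linarith
    · exact h
  have hPq : 0 < Pf q := by
    rcases (hP0 q).eq_or_lt with h | h
    · simp only [G, ← h] at hGq; nlinarith
    · exact h
  have hsq : Pf q ^ 2 = 1 - q ^ 2 - (q * q / 4) ^ 2 := sq_sqrt (sqrt_pos.1 hPq).le
  have e1 : q * q / 4 = -Pf q * tan (ang (-Pf q) q) := by
    rw [tan_ang]; simp only [G] at hGq; simp only [sub_neg_eq_add]; linarith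
  refine ⟨-Pf q, q, by linarith, hq0, ?_, e1, e1, by linarith, by linarith⟩
  intro hcon
  have hPeq : Pf q = q := by linarith
  simp only [G, hPeq] at hGq
  have h2 : (1 + q) * k q ≤ tan ((1 + q) * k q) :=
    le_tan (by have := k_pos q; positivity) (by nlinarith [half_lt, k_le q, k_pos q, hq.2])
  have h3 : tan ((1 + q) * k q) = q / 4 := by
    have : q * (q / 4 - tan ((1 + q) * k q)) = 0 := by linarith
    rcases mul_eq_zero.1 this with h | h <;> linarith
  have h4 : k q * (1 + (q / 4) ^ 2) = 1 / 4 := by unfold k; field_simp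
  have h5 : (1 + q) * k q * (1 + (q / 4) ^ 2) ≤ q / 4 * (1 + (q / 4) ^ 2) := by
    apply mul_le_mul_of_nonneg_right (by linarith) (by positivity)
  rw [mul_assoc, h4] at h5
  have := hq.2
  have h6 : q ^ 3 ≤ 1 := pow_le_one₀ hq0.le this
  nlinarith

/-- the complete solution of the system -/
theorem sys_solution : ∃ p₀ q₀ : ℝ, p₀ < 0 ∧ 0 < q₀ ∧ p₀ + q₀ ≠ 0 ∧ ∀ p q r s : ℝ,
    Sys p q r s ↔ ((p = 1 ∧ q = 0 ∧ r = 1 ∧ s = 0) ∨ (p = p₀ ∧ q = q₀ ∧ r = p₀ ∧ s = q₀) ∨
      (p = p₀ ∧ q = -q₀ ∧ r = p₀ ∧ s = -q₀)) := by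
  obtain ⟨p₀, q₀, h1, h2, h3, h4⟩ := sys_exists
  refine ⟨p₀, q₀, h1, h2, h3, fun p q r s => ⟨fun h => ?_, ?_⟩⟩
  · by_cases hp : p = 1
    · subst hp
      exact Or.inl ⟨rfl, sys_one h⟩
    · obtain ⟨a, rfl, rfl, -⟩ := sys_generic h hp
      obtain ⟨rfl, b⟩ := sys_unique h h4 a h1
      rcases sq_eq_sq_iff_eq_or_eq_neg.1 b with rfl | rfl
      · exact Or.inr (Or.inl ⟨rfl, rfl, rfl, rfl⟩)
      · exact Or.inr (Or.inr ⟨rfl, rfl, rfl, rfl⟩)
  · rintro (⟨rfl, rfl, rfl, rfl⟩ | ⟨rfl, rfl, rfl, rfl⟩ | ⟨rfl, rfl, rfl, rfl⟩)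
    · simp [Sys, ang]
    · exact h4
    · exact sys_neg h4

end Crest.Agent.H0316
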