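import Crest.Agent.H0316.Flow
import Crest.Agent.H0316.System

set_option autoImplicit false

namespace Crest.Agent.H0316

open Crest.GeometryTopology.Quadric
open scoped ContDiff
open Real

lemma contDiff_ang : ContDiff ℝ ∞ (fun p : ℝ × ℝ => ang p.1 p.2) := by
  unfold ang
  refine (contDiff_fst.sub contDiff_const).mul (ContDiff.mul ?_ contDiff_const)
  exact contDiff_const.div (contDiff_const.add ((contDiff_snd.div_const 4).pow 2))
    (fun x => by positivity)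

noncomputable def b1 : Block where
  A := L1
  B := R1
  hA := Or.inl rfl
  hB := Or.inr (Or.inr (Or.inl rfl))
  comm z := by ext j; fin_cases j <;> simp
  hAA t z := by simp [rot, mu_L1_L1]
  hAB t z := by simp [rot, mu_L1_R1]
  hBA t z := by simp [rot, mu_R1_L1]
  hBB t z := by simp [rot, mu_R1_R1]
  f x y := π * x + (x - 1) * arctan (y / 4)
  θ _ y := π + arctan (y / 4)
  η x y := ang x y
  sf := (contDiff_const.mul contDiff_fst).add ((contDiff_fst.sub contDiff_const).mul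
    (contDiff_arctan.comp (contDiff_snd.div_const 4)))
  sθ := contDiff_const.add (contDiff_arctan.comp (contDiff_snd.div_const 4))
  sη := contDiff_ang
  df x y x' y' t hx hy := by
    refine HasDerivAt.congr_deriv
      ((hx.const_mul π).add ((hx.sub_const 1).mul (hy.div_const 4).arctan)) ?_
    unfold ang; ring

noncomputable def b2 : Block where
  A := L2
  B := R2
  hA := Or.inr (Or.inl rfl)
  hB := Or.inr (Or.inr (Or.inr rfl))
  comm z := by ext j; fin_cases j <;> simp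
  hAA t z := by simp [rot, mu_L2_L2]
  hAB t z := by simp [rot, mu_L2_R2]
  hBA t z := by simp [rot, mu_R2_L2]
  hBB t z := by simp [rot, mu_R2_R2]
  f x y := (y - 1) * arctan (x / 4)
  θ x y := ang y x
  η x _ := arctan (x / 4)
  sf := (contDiff_snd.sub contDiff_const).mul (contDiff_arctan.comp (contDiff_fst.div_const 4))
  sθ := contDiff_ang.comp (contDiff_snd.prodMk contDiff_fst)
  sη := contDiff_arctan.comp (contDiff_fst.div_const 4)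
  df x y x' y' t hx hy := by
    refine HasDerivAt.congr_deriv ((hy.sub_const 1).mul (hx.div_const 4).arctan) ?_
    unfold ang; ring

noncomputable def Φ (z : E) : E := b2.T 1 (b1.T 1 z)

lemma T1_eq (z : E) : b1.T 1 z =
    rot L1 (π + arctan (mu R1 z / 4)) (rot R1 (ang (mu L1 z) (mu R1 z)) z) := by
  simp [Block.T, Block.th, Block.et, b1]

lemma T2_eq (z : E) : b2.T 1 z =
    rot L2 (ang (mu R2 z) (mu L2 z)) (rot R2 (arctan (mu L2 z / 4)) z) := by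
  simp [Block.T, Block.th, Block.et, b2]

lemma gL1 : IsG L1 := Or.inl rfl
lemma gL2 : IsG L2 := Or.inr (Or.inl rfl)
lemma gR1 : IsG R1 := Or.inr (Or.inr (Or.inl rfl))
lemma gR2 : IsG R2 := Or.inr (Or.inr (Or.inr rfl))

lemma cos_ang_pos {u : ℝ} (v : ℝ) (h : |u| ≤ 1) : 0 < cos (ang u v) := by
  have := abs_le.1 (abs_ang_le v h)
  apply cos_pos_of_mem_Ioo
  constructor <;> linarith [half_lt]

lemma sin_ang_eq_zero {u v : ℝ} (h : |u| ≤ 1) (h0 : sin (ang u v) = 0) : u = 1 := by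
  have := abs_le.1 (abs_ang_le v h)
  have h1 : ang u v = 0 :=
    (sin_eq_zero_iff_of_lt_of_lt (by linarith [pi_gt_three]) (by linarith [pi_gt_three])).1 h0
  have h2 : ang u v = (u - 1) * k v := rfl
  rw [h2] at h1
  rcases mul_eq_zero.1 h1 with h | h
  · linarith
  · exact absurd h (k_pos v).ne'

/-- no fixed points off the hyperplane section -/
lemma no_fix_aux (c1 s1 c2 s2 c3 s3 c4 s4 : ℝ) (h1 : c1 ^ 2 + s1 ^ 2 = 1)
    (h2 : c2 ^ 2 + s2 ^ 2 = 1) (z : E)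
    (h : rt L2 c2 s2 (rt R2 c4 s4 (rt L1 c1 s1 (rt R1 c3 s3 z))) = z) :
    (c3 * c4 - c1 * c2) * ((z 0).re ^ 2 + (z 0).im ^ 2 + (z 1).re ^ 2 + (z 1).im ^ 2 +
      (z 2).re ^ 2 + (z 2).im ^ 2 + (z 3).re ^ 2 + (z 3).im ^ 2) = 0 := by
  have e1 : (herm (rt L2 c2 s2 (rt R2 c4 s4 (rt L1 c1 s1 (rt R1 c3 s3 z))))
      (rt L2 c2 s2 (rt L1 c1 s1 z))).re = (c1 ^ 2 + s1 ^ 2) * (c2 ^ 2 + s2 ^ 2) * (c3 * c4) *
      ((z 0).re ^ 2 + (z 0).im ^ 2 + (z 1).re ^ 2 + (z 1).im ^ 2 +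
      (z 2).re ^ 2 + (z 2).im ^ 2 + (z 3).re ^ 2 + (z 3).im ^ 2) +
      ((z 4).re ^ 2 + (z 4).im ^ 2) := by
    simp [herm_re, rt_apply]; ring
  have e2 : (herm z (rt L2 c2 s2 (rt L1 c1 s1 z))).re = (c1 * c2) *
      ((z 0).re ^ 2 + (z 0).im ^ 2 + (z 1).re ^ 2 + (z 1).im ^ 2 +
      (z 2).re ^ 2 + (z 2).im ^ 2 + (z 3).re ^ 2 + (z 3).im ^ 2) +
      ((z 4).re ^ 2 + (z 4).im ^ 2) := by
    simp [herm_re, rt_apply]; ring
  rw [h, e2, h1, h2] at e1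
  linarith

lemma fix_4 {z : E} (hz : z ∈ unitCone) {c : ℂ} (h : Φ z = c • z) : z 4 = 0 := by
  by_contra h4
  have e4 : Φ z 4 = z 4 := by simp only [Φ, Block.T_4]
  have hc : c = 1 := by
    rw [h] at e4
    simp only [Pi.smul_apply, smul_eq_mul] at e4
    exact mul_right_cancel₀ h4 (by rw [e4, one_mul])
  rw [hc, one_smul, Φ, T2_eq] at h
  have hz' : b1.T 1 z ∈ unitCone := b1.T_mem hz
  have p2 := cos_ang_pos (mu L2 (b1.T 1 z)) (abs_mu_le gR2 hz')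
  have p4 := cos_arctan_pos (mu L2 (b1.T 1 z) / 4)
  generalize ang (mu R2 (b1.T 1 z)) (mu L2 (b1.T 1 z)) = θ2 at h p2
  generalize arctan (mu L2 (b1.T 1 z) / 4) = η2 at h p4
  rw [T1_eq] at h
  have p3 := cos_ang_pos (mu R1 z) (abs_mu_le gL1 hz)
  have p1 : cos (π + arctan (mu R1 z / 4)) < 0 := by
    rw [add_comm, cos_add_pi]; linarith [cos_arctan_pos (mu R1 z / 4)]
  have := no_fix_aux _ _ _ _ _ _ _ _ (cos_sq_add_sin_sq _) (cos_sq_add_sin_sq _) z h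
  have hpos : 0 < cos (ang (mu L1 z) (mu R1 z)) * cos η2 -
      cos (π + arctan (mu R1 z / 4)) * cos θ2 := by
    nlinarith [mul_pos p3 p4, mul_pos (neg_pos.2 p1) p2]
  have hN := (mul_eq_zero.1 this).resolve_left hpos.ne'
  rw [mem_cone_iff] at hz
  obtain ⟨a1, a2, a3⟩ := hz
  have q0 : (z 0).re = 0 ∧ (z 0).im = 0 ∧ (z 1).re = 0 ∧ (z 1).im = 0 ∧ (z 2).re = 0 ∧
      (z 2).im = 0 ∧ (z 3).re = 0 ∧ (z 3).im = 0 := by
    have := sq_nonneg (z 0).re; have := sq_nonneg (z 0).im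
    have := sq_nonneg (z 1).re; have := sq_nonneg (z 1).im
    have := sq_nonneg (z 2).re; have := sq_nonneg (z 2).im
    have := sq_nonneg (z 3).re; have := sq_nonneg (z 3).im
    refine ⟨?_, ?_, ?_, ?_, ?_, ?_, ?_, ?_⟩ <;> (apply pow_eq_zero_iff (two_ne_zero) |>.1; linarith)
  obtain ⟨q1, q2, q3, q4, q5, q6, q7, q8⟩ := q0
  rw [q1, q2, q3, q4, q5, q6, q7, q8] at a1 a2 a3
  have : ((z 4).re ^ 2 + (z 4).im ^ 2) ^ 2 =
      ((z 4).re ^ 2 - (z 4).im ^ 2) ^ 2 + 4 * ((z 4).re * (z 4).im) ^ 2 := by ring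
  have b1 : (z 4).re ^ 2 + (z 4).im ^ 2 = 1 := by linarith
  have b2 : (z 4).re ^ 2 - (z 4).im ^ 2 = 0 := by linarith
  have b3 : (z 4).re * (z 4).im = 0 := by linarith
  rw [b1, b2, b3] at this
  norm_num at this

lemma sphere_fwd {x1 x2 x3 c s c' s' : ℝ} (h : c ^ 2 + s ^ 2 = 1) (h' : c' ^ 2 + s' ^ 2 = 1)
    (hc : c ≠ 0) (hc' : c' ≠ 0)
    (e2 : (c ^ 2 - s ^ 2) * x2 - 2 * c * s * x3 = x2)
    (e1 : (c' ^ 2 - s' ^ 2) * x1 + 2 * c' * s' * ((c ^ 2 - s ^ 2) * x3 + 2 * c * s * x2) = x1)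
    (e3 : (c' ^ 2 - s' ^ 2) * ((c ^ 2 - s ^ 2) * x3 + 2 * c * s * x2) - 2 * c' * s' * x1 = x3) :
    (c * x3 + s * x2 = 0 ∧ c' * x3 + s' * x1 = 0) ∨ (s = 0 ∧ s' = 0) := by
  set x3' := (c ^ 2 - s ^ 2) * x3 + 2 * c * s * x2 with hx3'
  have a1 : s * (c * x3 + s * x2) = 0 := by linear_combination (-1 / 2) * e2 + (x2 / 2) * h
  have a2 : s' * (s' * x1 - c' * x3') = 0 := by linear_combination (-1 / 2) * e1 + (x1 / 2) * h'
  have a3 : x3' + x3 = 2 * c * (c * x3 + s * x2) := by rw [hx3']; linear_combination (-x3) * h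
  have a4 : x3' + x3 = -2 * c' * (s' * x1 - c' * x3') := by
    linear_combination (-1) * e3 - x3' * h'
  have fin : c * x3 + s * x2 = 0 → s' * x1 - c' * x3' = 0 →
      (c * x3 + s * x2 = 0 ∧ c' * x3 + s' * x1 = 0) := fun u u' => by
    refine ⟨u, ?_⟩
    rw [u] at a3
    have : x3' = -x3 := by linarith
    rw [this] at u'; linarith
  by_cases hs : s = 0
  · by_cases hs' : s' = 0
    · exact Or.inr ⟨hs, hs'⟩
    · have u' := (mul_eq_zero.1 a2).resolve_left hs'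
      have : c * (c * x3 + s * x2) = 0 := by rw [u'] at a4; linarith
      exact Or.inl (fin ((mul_eq_zero.1 this).resolve_left hc) u')
  · have u := (mul_eq_zero.1 a1).resolve_left hs
    have : c' * (s' * x1 - c' * x3') = 0 := by rw [u] at a3; linarith
    exact Or.inl (fin u ((mul_eq_zero.1 this).resolve_left hc'))

lemma sphere_bwd {x1 x2 x3 c s c' s' : ℝ} (h : c ^ 2 + s ^ 2 = 1) (h' : c' ^ 2 + s' ^ 2 = 1)
    (u : c * x3 + s * x2 = 0) (u' : c' * x3 + s' * x1 = 0) :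
    ((c' ^ 2 - s' ^ 2) * x1 + 2 * c' * s' * ((c ^ 2 - s ^ 2) * x3 + 2 * c * s * x2) = x1) ∧
    ((c' ^ 2 - s' ^ 2) * ((c ^ 2 - s ^ 2) * x3 + 2 * c * s * x2) - 2 * c' * s' * x1 = x3) := by
  have a3 : (c ^ 2 - s ^ 2) * x3 + 2 * c * s * x2 = -x3 := by
    linear_combination 2 * c * u - x3 * h
  rw [a3]
  constructor
  · linear_combination (-2 * s') * u' + x1 * h'
  · linear_combination (-2 * c') * u' + x3 * h'

lemma sphere_bwd2 {x2 x3 c s : ℝ} (h : c ^ 2 + s ^ 2 = 1) (u : c * x3 + s * x2 = 0) :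
    (c ^ 2 - s ^ 2) * x2 - 2 * c * s * x3 = x2 := by
  linear_combination (-2 * s) * u + x2 * h

section moments
variable (a b : ℝ) (z : E)

lemma m1_L1 : mu L1 (rot L1 a (rot R1 b z)) = mu L1 z := by simp [rot, mu_L1_L1, mu_L1_R1]
lemma m1_L2 : mu L2 (rot L1 a (rot R1 b z)) =
    (cos a ^ 2 - sin a ^ 2) * mu L2 z - 2 * cos a * sin a * mu L3 z := by
  simp [rot, mu_L2_L1, mu_L2_R1, mu_L3_R1]
lemma m1_L3 : mu L3 (rot L1 a (rot R1 b z)) =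
    (cos a ^ 2 - sin a ^ 2) * mu L3 z + 2 * cos a * sin a * mu L2 z := by
  simp [rot, mu_L3_L1, mu_L2_R1, mu_L3_R1]
lemma m1_R1 : mu R1 (rot L1 a (rot R1 b z)) = mu R1 z := by simp [rot, mu_R1_L1, mu_R1_R1]
lemma m1_R2 : mu R2 (rot L1 a (rot R1 b z)) =
    (cos b ^ 2 - sin b ^ 2) * mu R2 z - 2 * cos b * sin b * mu R3 z := by
  simp [rot, mu_R2_L1, mu_R2_R1]
lemma m1_R3 : mu R3 (rot L1 a (rot R1 b z)) =
    (cos b ^ 2 - sin b ^ 2) * mu R3 z + 2 * cos b * sin b * mu R2 z := by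
  simp [rot, mu_R3_L1, mu_R3_R1]
lemma m2_L1 : mu L1 (rot L2 a (rot R2 b z)) =
    (cos a ^ 2 - sin a ^ 2) * mu L1 z + 2 * cos a * sin a * mu L3 z := by
  simp [rot, mu_L1_L2, mu_L1_R2, mu_L3_R2]
lemma m2_L2 : mu L2 (rot L2 a (rot R2 b z)) = mu L2 z := by simp [rot, mu_L2_L2, mu_L2_R2]
lemma m2_L3 : mu L3 (rot L2 a (rot R2 b z)) =
    (cos a ^ 2 - sin a ^ 2) * mu L3 z - 2 * cos a * sin a * mu L1 z := by
  simp [rot, mu_L3_L2, mu_L1_R2, mu_L3_R2]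
lemma m2_R1 : mu R1 (rot L2 a (rot R2 b z)) =
    (cos b ^ 2 - sin b ^ 2) * mu R1 z + 2 * cos b * sin b * mu R3 z := by
  simp [rot, mu_R1_L2, mu_R1_R2]
lemma m2_R2 : mu R2 (rot L2 a (rot R2 b z)) = mu R2 z := by simp [rot, mu_R2_L2, mu_R2_R2]
lemma m2_R3 : mu R3 (rot L2 a (rot R2 b z)) =
    (cos b ^ 2 - sin b ^ 2) * mu R3 z - 2 * cos b * sin b * mu R1 z := by
  simp [rot, mu_R3_L2, mu_R3_R2]
end moments

lemma unit_L {z : E} (hz : z ∈ unitCone) (h4 : z 4 = 0) :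
    mu L1 z ^ 2 + mu L2 z ^ 2 + mu L3 z ^ 2 = 1 := by
  rw [mem_cone_iff, h4] at hz
  obtain ⟨a1, a2, a3⟩ := hz
  simp only [Complex.zero_re, Complex.zero_im] at a1 a2 a3
  have : mu L1 z ^ 2 + mu L2 z ^ 2 + mu L3 z ^ 2 =
      ((z 0).re ^ 2 + (z 0).im ^ 2 + (z 1).re ^ 2 + (z 1).im ^ 2 + (z 2).re ^ 2 + (z 2).im ^ 2 +
      (z 3).re ^ 2 + (z 3).im ^ 2) ^ 2 -
      ((z 0).re ^ 2 - (z 0).im ^ 2 + (z 1).re ^ 2 - (z 1).im ^ 2 + (z 2).re ^ 2 - (z 2).im ^ 2 +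
      (z 3).re ^ 2 - (z 3).im ^ 2) ^ 2 -
      4 * ((z 0).re * (z 0).im + (z 1).re * (z 1).im + (z 2).re * (z 2).im +
        (z 3).re * (z 3).im) ^ 2 := by
    simp [mu, herm_im]; ring
  rw [this]
  have b1 : (z 0).re ^ 2 + (z 0).im ^ 2 + (z 1).re ^ 2 + (z 1).im ^ 2 + (z 2).re ^ 2 +
    (z 2).im ^ 2 + (z 3).re ^ 2 + (z 3).im ^ 2 = 1 := by linarith
  have b2 : (z 0).re ^ 2 - (z 0).im ^ 2 + (z 1).re ^ 2 - (z 1).im ^ 2 + (z 2).re ^ 2 -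
    (z 2).im ^ 2 + (z 3).re ^ 2 - (z 3).im ^ 2 = 0 := by linarith
  have b3 : (z 0).re * (z 0).im + (z 1).re * (z 1).im + (z 2).re * (z 2).im +
        (z 3).re * (z 3).im = 0 := by linarith
  rw [b1, b2, b3]; norm_num

lemma unit_R {z : E} (hz : z ∈ unitCone) (h4 : z 4 = 0) :
    mu R1 z ^ 2 + mu R2 z ^ 2 + mu R3 z ^ 2 = 1 := by
  rw [← unit_L hz h4]
  simp [mu, herm_im]; ring

/-- the moment values determine the line -/
lemma line_of_mu {z w : E} (hz : z ∈ unitCone) (hw : w ∈ unitCone) (z4 : z 4 = 0) (w4 : w 4 = 0)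
    (e1 : mu L1 w = mu L1 z) (e2 : mu L2 w = mu L2 z) (e3 : mu L3 w = mu L3 z)
    (e4 : mu R1 w = mu R1 z) (e5 : mu R2 w = mu R2 z) (e6 : mu R3 w = mu R3 z) :
    w = herm z w • z := by
  simp [mu, herm_im] at e1 e2 e3 e4 e5 e6
  have M : ∀ j k, starRingEnd ℂ (z j) * z k - z j * starRingEnd ℂ (z k) =
      starRingEnd ℂ (w j) * w k - w j * starRingEnd ℂ (w k) := by
    intro j k
    apply Complex.ext
    · simp
    · fin_cases j <;> fin_cases k <;> simp [z4, w4] <;> linarith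
  obtain ⟨z1, z2⟩ := hz
  obtain ⟨w1, w2⟩ := hw
  simp only [herm, Fin.sum_univ_five] at z1 z2 w1 w2 ⊢
  have key : ∀ j, w j = (starRingEnd ℂ (z 0) * w 0 + starRingEnd ℂ (z 1) * w 1 +
      starRingEnd ℂ (z 2) * w 2 + starRingEnd ℂ (z 3) * w 3 + starRingEnd ℂ (z 4) * w 4) * z j -
      (z 0 * w 0 + z 1 * w 1 + z 2 * w 2 + z 3 * w 3 + z 4 * w 4) * starRingEnd ℂ (z j) := by
    intro j
    linear_combination (w 0) * M j 0 + (w 1) * M j 1 + (w 2) * M j 2 + (w 3) * M j 3 +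
      (w 4) * M j 4 + starRingEnd ℂ (w j) * w2 - w j * w1
  have hβ : z 0 * w 0 + z 1 * w 1 + z 2 * w 2 + z 3 * w 3 + z 4 * w 4 = 0 := by
    linear_combination (1 / 2 : ℂ) * (z 0 * key 0 + z 1 * key 1 + z 2 * key 2 + z 3 * key 3 +
      z 4 * key 4 + (starRingEnd ℂ (z 0) * w 0 + starRingEnd ℂ (z 1) * w 1 +
      starRingEnd ℂ (z 2) * w 2 + starRingEnd ℂ (z 3) * w 3 + starRingEnd ℂ (z 4) * w 4) * z2 -
      (z 0 * w 0 + z 1 * w 1 + z 2 * w 2 + z 3 * w 3 + z 4 * w 4) * z1)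
  ext j
  rw [key j, hβ]
  simp

lemma norm_of_smul {z w : E} (hz : z ∈ unitCone) (hw : w ∈ unitCone) {c : ℂ} (h : w = c • z) :
    ‖c‖ = 1 := by
  have h1 := hw.1
  rw [h, herm_smul_smul, hz.1, mul_one] at h1
  have h2 : ‖c‖ ^ 2 = 1 := by exact_mod_cast h1
  exact (pow_eq_one_iff_of_nonneg (norm_nonneg c) two_ne_zero).1 h2

lemma exists_point {x1 x2 x3 y1 y2 y3 : ℝ} (hx : x1 ^ 2 + x2 ^ 2 + x3 ^ 2 = 1)
    (hy : y1 ^ 2 + y2 ^ 2 + y3 ^ 2 = 1) (hd : 0 < 1 + x1 * y1 + x2 * y2 - x3 * y3) :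
    ∃ z ∈ unitCone, z 4 = 0 ∧ mu L1 z = x1 ∧ mu L2 z = x2 ∧ mu L3 z = x3 ∧
      mu R1 z = y1 ∧ mu R2 z = y2 ∧ mu R3 z = y3 := by
  obtain ⟨m, hm⟩ : ∃ m : ℝ, 4 * (1 + x1 * y1 + x2 * y2 - x3 * y3) * m ^ 2 = 1 := by
    refine ⟨√(1 / (4 * (1 + x1 * y1 + x2 * y2 - x3 * y3))), ?_⟩
    rw [sq_sqrt (by positivity)]; field_simp
  refine ⟨![⟨m * (1 + x1 * y1 + x2 * y2 - x3 * y3), 0⟩, ⟨m * (x2 * y3 + x3 * y2), m * (x1 + y1)⟩,
    ⟨m * (-(x3 * y1) - x1 * y3), m * (x2 + y2)⟩, ⟨m * (x2 * y1 - x1 * y2), m * (x3 - y3)⟩, 0],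
    ?_, ?_, ?_, ?_, ?_, ?_, ?_, ?_⟩
  · rw [mem_cone_iff]
    simp
    refine ⟨?_, ?_, ?_⟩
    · linear_combination hm + m ^ 2 * (y1 ^ 2 + y2 ^ 2 + y3 ^ 2 + 1) * hx + 2 * m ^ 2 * hy
    · linear_combination m ^ 2 * (y1 ^ 2 + y2 ^ 2 + y3 ^ 2 - 1) * hx
    · ring
  · simp
  · simp [mu, herm_im]
    linear_combination x1 * hm + 2 * m ^ 2 * x1 * hy - 2 * m ^ 2 * y1 * hx
  · simp [mu, herm_im]
    linear_combination x2 * hm + 2 * m ^ 2 * x2 * hy - 2 * m ^ 2 * y2 * hx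
  · simp [mu, herm_im]
    linear_combination x3 * hm + 2 * m ^ 2 * x3 * hy + 2 * m ^ 2 * y3 * hx
  · simp [mu, herm_im]
    linear_combination y1 * hm + 2 * m ^ 2 * y1 * hx - 2 * m ^ 2 * x1 * hy
  · simp [mu, herm_im]
    linear_combination y2 * hm + 2 * m ^ 2 * y2 * hx - 2 * m ^ 2 * x2 * hy
  · simp [mu, herm_im]
    linear_combination y3 * hm + 2 * m ^ 2 * y3 * hx + 2 * m ^ 2 * x3 * hy

end Crest.Agent.H0316
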