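import Crest.Agent.H0316.Basic

set_option autoImplicit false

namespace Crest.Agent.H0316

open Crest.GeometryTopology.Quadric
open scoped ContDiff

lemma IsG.AP {A : E →L[ℝ] E} (hA : IsG A) (z : E) : A (P z) = A z := by
  rcases hA with rfl | rfl | rfl | rfl <;> (ext j; fin_cases j <;> simp)

lemma IsG.PA {A : E →L[ℝ] E} (hA : IsG A) (z : E) : P (A z) = A z := by
  rcases hA with rfl | rfl | rfl | rfl <;> (ext j; fin_cases j <;> simp)

lemma IsG.AA {A : E →L[ℝ] E} (hA : IsG A) (z : E) : A (A z) = -P z := by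
  rcases hA with rfl | rfl | rfl | rfl <;> (ext j; fin_cases j <;> simp)

lemma IsG.skew {A : E →L[ℝ] E} (hA : IsG A) (z w : E) :
    (herm (A w) z).im = (herm (A z) w).im := by
  rcases hA with rfl | rfl | rfl | rfl <;> (simp [herm_im]; ring)

lemma hasDerivAt_rot {A : E →L[ℝ] E} (hA : IsG A) {θ : ℝ → ℝ} {γ : ℝ → E} {θ' t : ℝ} {γ' : E}
    (hθ : HasDerivAt θ θ' t) (hγ : HasDerivAt γ γ' t) :
    HasDerivAt (fun s => rot A (θ s) (γ s)) (θ' • A (rot A (θ t) (γ t)) + rot A (θ t) γ') t := by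
  have h1 : HasDerivAt (fun s => P (γ s)) (P γ') t := P.hasFDerivAt.comp_hasDerivAt t hγ
  have h2 : HasDerivAt (fun s => A (γ s)) (A γ') t := A.hasFDerivAt.comp_hasDerivAt t hγ
  have h3 := (hγ.add ((hθ.cos.sub_const 1).smul h1)).add (hθ.sin.smul h2)
  refine HasDerivAt.congr_deriv h3 ?_
  simp only [rot, rt, map_add, map_smul, hA.AP, hA.AA]
  module

lemma hasDerivAt_herm_im {u w : ℝ → E} {u' w' : E} {t : ℝ} (hu : HasDerivAt u u' t)
    (hw : HasDerivAt w w' t) :
    HasDerivAt (fun s => (herm (u s) (w s)).im) ((herm u' (w t)).im + (herm (u t) w').im) t := by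
  have hr : ∀ {u : ℝ → E} {u' : E}, HasDerivAt u u' t → ∀ j,
      HasDerivAt (fun s => (u s j).re) (u' j).re t := fun {u u'} hu j =>
    Complex.reCLM.hasFDerivAt.comp_hasDerivAt t (hasDerivAt_pi.1 hu j)
  have hi : ∀ {u : ℝ → E} {u' : E}, HasDerivAt u u' t → ∀ j,
      HasDerivAt (fun s => (u s j).im) (u' j).im t := fun {u u'} hu j =>
    Complex.imCLM.hasFDerivAt.comp_hasDerivAt t (hasDerivAt_pi.1 hu j)
  have hj : ∀ j, HasDerivAt (fun s => (u s j).re * (w s j).im - (u s j).im * (w s j).re)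
      (((u' j).re * (w t j).im + (u t j).re * (w' j).im) -
        ((u' j).im * (w t j).re + (u t j).im * (w' j).re)) t := fun j =>
    ((hr hu j).mul (hi hw j)).sub ((hi hu j).mul (hr hw j))
  simp only [herm_im]
  refine HasDerivAt.congr_deriv (((((hj 0).add (hj 1)).add (hj 2)).add (hj 3)).add (hj 4)) ?_
  ring

lemma hasDerivAt_mu {A : E →L[ℝ] E} (hA : IsG A) {γ : ℝ → E} {t : ℝ} {γ' : E}
    (hγ : HasDerivAt γ γ' t) :
    HasDerivAt (fun s => mu A (γ s)) (2 * (herm (A (γ t)) γ').im) t := by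
  have h2 : HasDerivAt (fun s => A (γ s)) (A γ') t := A.hasFDerivAt.comp_hasDerivAt t hγ
  have := hasDerivAt_herm_im h2 hγ
  rw [hA.skew] at this
  refine HasDerivAt.congr_deriv this ?_
  ring

lemma contDiff_mu (A : E →L[ℝ] E) : ContDiff ℝ ∞ (mu A) := by
  have hr : ∀ (B : E →L[ℝ] E) j, ContDiff ℝ ∞ (fun z : E => (B z j).re) := fun B j =>
    (Complex.reCLM.comp ((ContinuousLinearMap.proj j).comp B)).contDiff
  have hi : ∀ (B : E →L[ℝ] E) j, ContDiff ℝ ∞ (fun z : E => (B z j).im) := fun B j =>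
    (Complex.imCLM.comp ((ContinuousLinearMap.proj j).comp B)).contDiff
  have hj : ∀ j, ContDiff ℝ ∞ (fun z : E => (A z j).re * (z j).im - (A z j).im * (z j).re) :=
    fun j => ((hr A j).mul (hi (ContinuousLinearMap.id ℝ E) j)).sub
      ((hi A j).mul (hr (ContinuousLinearMap.id ℝ E) j))
  have : mu A = fun z => ((A z 0).re * (z 0).im - (A z 0).im * (z 0).re) +
      ((A z 1).re * (z 1).im - (A z 1).im * (z 1).re) +
      ((A z 2).re * (z 2).im - (A z 2).im * (z 2).re) +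
      ((A z 3).re * (z 3).im - (A z 3).im * (z 3).re) +
      ((A z 4).re * (z 4).im - (A z 4).im * (z 4).re) := by
    ext z; rw [mu, herm_im]
  rw [this]
  exact ((((hj 0).add (hj 1)).add (hj 2)).add (hj 3)).add (hj 4)

lemma contDiff_rot {X : Type*} [NormedAddCommGroup X] [NormedSpace ℝ X] (A : E →L[ℝ] E)
    {θ : X → ℝ} {γ : X → E} (hθ : ContDiff ℝ ∞ θ) (hγ : ContDiff ℝ ∞ γ) :
    ContDiff ℝ ∞ (fun x => rot A (θ x) (γ x)) := by
  unfold rot rt
  exact (hγ.add ((hθ.cos.sub contDiff_const).smul (P.contDiff.comp hγ))).add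
    (hθ.sin.smul (A.contDiff.comp hγ))

lemma fderiv_apply_of_line {F : Type*} [NormedAddCommGroup F] [NormedSpace ℝ F] {G : E → F}
    {z w : E} {d : F} (hG : DifferentiableAt ℝ G z)
    (h : HasDerivAt (fun s : ℝ => G (z + s • w)) d 0) : fderiv ℝ G z w = d := by
  have h1 : HasDerivAt (fun s : ℝ => z + s • w) w 0 := by
    simpa using ((hasDerivAt_id (0 : ℝ)).smul_const w).const_add z
  have h2 : HasFDerivAt G (fderiv ℝ G z) (z + (0 : ℝ) • w) := by simpa using hG.hasFDerivAt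
  exact (h2.comp_hasDerivAt (0 : ℝ) h1).unique h

/-- a toric block: commuting generators and a function of their two moment maps -/
structure Block where
  A : E →L[ℝ] E
  B : E →L[ℝ] E
  hA : IsG A
  hB : IsG B
  comm : ∀ z, A (B z) = B (A z)
  hAA : ∀ t z, mu A (rot A t z) = mu A z
  hAB : ∀ t z, mu A (rot B t z) = mu A z
  hBA : ∀ t z, mu B (rot A t z) = mu B z
  hBB : ∀ t z, mu B (rot B t z) = mu B z
  f : ℝ → ℝ → ℝ
  θ : ℝ → ℝ → ℝ
  η : ℝ → ℝ → ℝ
  sf : ContDiff ℝ ∞ (fun p : ℝ × ℝ => f p.1 p.2)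
  sθ : ContDiff ℝ ∞ (fun p : ℝ × ℝ => θ p.1 p.2)
  sη : ContDiff ℝ ∞ (fun p : ℝ × ℝ => η p.1 p.2)
  df : ∀ (x y : ℝ → ℝ) (x' y' t : ℝ), HasDerivAt x x' t → HasDerivAt y y' t →
    HasDerivAt (fun s => f (x s) (y s)) (θ (x t) (y t) * x' + η (x t) (y t) * y') t

namespace Block

variable (b : Block)

noncomputable def th (z : E) : ℝ := b.θ (mu b.A z) (mu b.B z)
noncomputable def et (z : E) : ℝ := b.η (mu b.A z) (mu b.B z)
noncomputable def ham (z : E) : ℝ := b.f (mu b.A z) (mu b.B z)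

/-- the flow -/
noncomputable def T (s : ℝ) (z : E) : E := rot b.A (s * b.th z) (rot b.B (s * b.et z) z)

lemma contDiff_th : ContDiff ℝ ∞ b.th :=
  b.sθ.comp ((contDiff_mu b.A).prodMk (contDiff_mu b.B))
lemma contDiff_et : ContDiff ℝ ∞ b.et :=
  b.sη.comp ((contDiff_mu b.A).prodMk (contDiff_mu b.B))
lemma contDiff_ham : ContDiff ℝ ∞ b.ham :=
  b.sf.comp ((contDiff_mu b.A).prodMk (contDiff_mu b.B))

lemma contDiff_T {X : Type*} [NormedAddCommGroup X] [NormedSpace ℝ X]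
    {σ : X → ℝ} {γ : X → E} (hσ : ContDiff ℝ ∞ σ) (hγ : ContDiff ℝ ∞ γ) :
    ContDiff ℝ ∞ (fun x => b.T (σ x) (γ x)) :=
  contDiff_rot _ (hσ.mul (b.contDiff_th.comp hγ))
    (contDiff_rot _ (hσ.mul (b.contDiff_et.comp hγ)) hγ)

@[simp] lemma T_zero (z : E) : b.T 0 z = z := by simp [T]

lemma T_mem {s : ℝ} {z : E} (hz : z ∈ unitCone) : b.T s z ∈ unitCone :=
  rot_mem_cone b.hA _ (rot_mem_cone b.hB _ hz)

lemma T_smul (s : ℝ) {c : ℂ} (hc : ‖c‖ = 1) (z : E) : b.T s (c • z) = c • b.T s z := by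
  simp only [T, th, et, mu_smul b.hA hc, mu_smul b.hB hc, rot_smul b.hA, rot_smul b.hB]

lemma ham_smul {c : ℂ} (hc : ‖c‖ = 1) (z : E) : b.ham (c • z) = b.ham z := by
  simp only [ham, mu_smul b.hA hc, mu_smul b.hB hc]

lemma muA_T (s : ℝ) (z : E) : mu b.A (b.T s z) = mu b.A z := by
  simp only [T, b.hAA, b.hAB]
lemma muB_T (s : ℝ) (z : E) : mu b.B (b.T s z) = mu b.B z := by
  simp only [T, b.hBA, b.hBB]

lemma T_4 (s : ℝ) (z : E) : b.T s z 4 = z 4 := by
  simp only [T, rot_4 b.hA, rot_4 b.hB]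

/-- the Hamiltonian vector field -/
noncomputable def X (z : E) : E := b.th z • b.A z + b.et z • b.B z

lemma hasDerivAt_T {σ : ℝ → ℝ} {σ' t : ℝ} (hσ : HasDerivAt σ σ' t) (z : E) :
    HasDerivAt (fun s => b.T (σ s) z) (σ' • b.X (b.T (σ t) z)) t := by
  have h1 := hasDerivAt_rot b.hB (hσ.mul_const (b.et z)) (hasDerivAt_const t z)
  have h2 := hasDerivAt_rot b.hA (hσ.mul_const (b.th z)) h1
  refine HasDerivAt.congr_deriv h2 ?_
  have e1 : b.th (b.T (σ t) z) = b.th z := by simp only [th, muA_T, muB_T]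
  have e2 : b.et (b.T (σ t) z) = b.et z := by simp only [et, muA_T, muB_T]
  rw [X, e1, e2]
  simp only [T, rot, rt, map_add, map_smul, b.hA.AP, b.hB.AP, b.hA.PA, b.hB.PA, b.comm,
    map_zero, smul_zero, add_zero]
  module

lemma hasDerivAt_ham {γ : ℝ → E} {γ' : E} {t : ℝ} (hγ : HasDerivAt γ γ' t) :
    HasDerivAt (fun s => b.ham (γ s)) (2 * (herm (b.X (γ t)) γ').im) t := by
  have := b.df _ _ _ _ t (hasDerivAt_mu b.hA hγ) (hasDerivAt_mu b.hB hγ)
  refine HasDerivAt.congr_deriv this ?_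
  simp [X, th, et, herm_im]
  ring

end Block

noncomputable def β1 (t : ℝ) : ℝ := Real.smoothTransition (3 * t)
noncomputable def β2 (t : ℝ) : ℝ := Real.smoothTransition (3 * t - 2)

lemma contDiff_β1 : ContDiff ℝ ∞ β1 :=
  Real.smoothTransition.contDiff.comp (contDiff_const.mul contDiff_id)
lemma contDiff_β2 : ContDiff ℝ ∞ β2 :=
  Real.smoothTransition.contDiff.comp ((contDiff_const.mul contDiff_id).sub contDiff_const)

lemma β1_zero : β1 0 = 0 := by simp [β1]
lemma β1_of_le {t : ℝ} (h : 1 / 3 ≤ t) : β1 t = 1 :=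
  Real.smoothTransition.one_of_one_le (by linarith)
lemma β2_of_le {t : ℝ} (h : t ≤ 2 / 3) : β2 t = 0 :=
  Real.smoothTransition.zero_of_nonpos (by linarith)
lemma β2_one : β2 1 = 1 := Real.smoothTransition.one_of_one_le (by norm_num)

lemma herm_real_smul (c : ℝ) (u w : E) : (herm (c • u) w).im = c * (herm u w).im := by
  simp [herm_im]; ring

/-- concatenation of the flows of two blocks -/
noncomputable def lift (b₁ b₂ : Block) : HamiltonianConeLift where
  Ψ p := b₂.T (β2 p.1) (b₁.T (β1 p.1) p.2)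
  H p := deriv β1 p.1 * b₁.ham p.2 + deriv β2 p.1 * b₂.ham p.2
  smooth_Ψ := b₂.contDiff_T (contDiff_β2.comp contDiff_fst)
    (b₁.contDiff_T (contDiff_β1.comp contDiff_fst) contDiff_snd)
  smooth_H := by
    have h1 : ContDiff ℝ ∞ (deriv β1) := (contDiff_infty_iff_deriv.1 contDiff_β1).2
    have h2 : ContDiff ℝ ∞ (deriv β2) := (contDiff_infty_iff_deriv.1 contDiff_β2).2
    exact ((h1.comp contDiff_fst).mul (b₁.contDiff_ham.comp contDiff_snd)).add
      ((h2.comp contDiff_fst).mul (b₂.contDiff_ham.comp contDiff_snd))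
  mapsTo_cone t z hz := b₂.T_mem (b₁.T_mem hz)
  compatible t z _ c hc := ⟨c, by simp only [b₁.T_smul _ hc, b₂.T_smul _ hc]⟩
  start z _ := ⟨1, by simp [β1_zero, β2_of_le (show (0 : ℝ) ≤ 2 / 3 by norm_num)]⟩
  invariant t z _ c hc := by simp only [b₁.ham_smul hc, b₂.ham_smul hc]
  hamilton t _ z _ w _ := by
    have d1 : HasDerivAt β1 (deriv β1 t) t :=
      (contDiff_β1.differentiable (by simp) t).hasDerivAt
    have d2 : HasDerivAt β2 (deriv β2 t) t :=
      (contDiff_β2.differentiable (by simp) t).hasDerivAt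
    set y := b₂.T (β2 t) (b₁.T (β1 t) z) with hy
    have hl : HasDerivAt (fun s : ℝ => y + s • w) w 0 := by
      simpa using ((hasDerivAt_id (0 : ℝ)).smul_const w).const_add y
    have hH : fderiv ℝ (fun x : E => deriv β1 t * b₁.ham x + deriv β2 t * b₂.ham x) y w =
        deriv β1 t * (2 * (herm (b₁.X y) w).im) + deriv β2 t * (2 * (herm (b₂.X y) w).im) := by
      apply fderiv_apply_of_line
      · exact ((b₁.contDiff_ham.differentiable (by simp) y).const_mul _).add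
          ((b₂.contDiff_ham.differentiable (by simp) y).const_mul _)
      · have := ((b₁.hasDerivAt_ham hl).const_mul (deriv β1 t)).add
          ((b₂.hasDerivAt_ham hl).const_mul (deriv β2 t))
        refine HasDerivAt.congr_deriv this ?_
        simp
    simp only []
    rw [hH]
    rcases lt_or_ge t (1 / 2) with ht | ht
    · have hev : β2 =ᶠ[nhds t] fun _ => 0 := by
        filter_upwards [Iio_mem_nhds (show t < 2 / 3 by linarith)] with s hs
        exact β2_of_le (le_of_lt hs)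
      have hd : deriv β2 t = 0 := by rw [hev.deriv_eq]; simp
      have hev2 : (fun s => b₂.T (β2 s) (b₁.T (β1 s) z)) =ᶠ[nhds t] fun s => b₁.T (β1 s) z := by
        filter_upwards [hev] with s hs
        simp [hs]
      have hy' : y = b₁.T (β1 t) z := hev2.self_of_nhds
      rw [hev2.deriv_eq, (b₁.hasDerivAt_T d1 z).deriv, hd, herm_real_smul, hy']
      ring
    · have hev : β1 =ᶠ[nhds t] fun _ => 1 := by
        filter_upwards [Ioi_mem_nhds (show 1 / 3 < t by linarith)] with s hs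
        exact β1_of_le (le_of_lt hs)
      have hd : deriv β1 t = 0 := by rw [hev.deriv_eq]; simp
      have hev2 : (fun s => b₂.T (β2 s) (b₁.T (β1 s) z)) =ᶠ[nhds t]
          fun s => b₂.T (β2 s) (b₁.T 1 z) := by
        filter_upwards [hev] with s hs
        simp [hs]
      have hy' : y = b₂.T (β2 t) (b₁.T 1 z) := hev2.self_of_nhds
      rw [hev2.deriv_eq, (b₂.hasDerivAt_T d2 _).deriv, hd, herm_real_smul, hy']
      ring

lemma lift_one (b₁ b₂ : Block) (z : E) : (lift b₁ b₂).Ψ (1, z) = b₂.T 1 (b₁.T 1 z) := by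
  simp [lift, β2_one, β1_of_le (show (1 : ℝ) / 3 ≤ 1 by norm_num)]

end Crest.Agent.H0316
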