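import Crest.Agent.H0316.Fixed

set_option autoImplicit false

namespace Crest.Agent.H0316

open Crest.GeometryTopology.Quadric
open scoped ContDiff
open Real

/-- the conditions on the moments characterising fixed points -/
def Cond (z : E) : Prop :=
  Sys (mu L1 z) (mu L2 z) (mu R2 z) (mu R1 z) ∧ mu L3 z = -(mu L2 z * mu R1 z / 4) ∧
    mu R3 z = -(mu L2 z * mu R1 z / 4)

lemma tan_form {c s a b t : ℝ} (hc : c ≠ 0) (ht : s = t * c) :
    c * a + s * b = 0 ↔ a = -(b * t) := by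
  subst ht
  constructor
  · intro h
    have : c * (a + b * t) = 0 := by linarith
    have := (mul_eq_zero.1 this).resolve_left hc
    linarith
  · rintro rfl; ring

lemma sin_eq_tan_mul {θ : ℝ} (h : cos θ ≠ 0) : sin θ = tan θ * cos θ := by
  rw [tan_eq_sin_div_cos]; field_simp

lemma cos_pa (y : ℝ) : cos (π + arctan y) ≠ 0 := by
  rw [add_comm, cos_add_pi]; linarith [cos_arctan_pos y]

lemma sin_pa (y : ℝ) : sin (π + arctan y) = y * cos (π + arctan y) := by
  rw [add_comm, cos_add_pi, sin_add_pi, sin_eq_tan_mul (cos_arctan_pos y).ne', tan_arctan]; ring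

lemma sin_a (y : ℝ) : sin (arctan y) = y * cos (arctan y) := by
  rw [sin_eq_tan_mul (cos_arctan_pos y).ne', tan_arctan]

lemma unit_one {a b c : ℝ} (h : 1 ^ 2 + a ^ 2 + b ^ 2 = c) (hc : c = 1 := by rfl) :
    a = 0 ∧ b = 0 := by
  subst hc
  constructor <;> nlinarith [sq_nonneg a, sq_nonneg b]

lemma unit_two {a b : ℝ} (h : a ^ 2 + 1 ^ 2 + b ^ 2 = 1) : a = 0 ∧ b = 0 := by
  constructor <;> nlinarith [sq_nonneg a, sq_nonneg b]

lemma cond_of_fix {z : E} (hz : z ∈ unitCone) {c : ℂ} (h : Φ z = c • z) : Cond z := by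
  have z4 := fix_4 hz h
  have hc : ‖c‖ = 1 := norm_of_smul hz (b2.T_mem (b1.T_mem hz)) h
  have e1 : mu L1 (Φ z) = mu L1 z := by rw [h]; exact mu_mk_smul _ _ hc z
  have e2 : mu L2 (Φ z) = mu L2 z := by rw [h]; exact mu_mk_smul _ _ hc z
  have e3 : mu L3 (Φ z) = mu L3 z := by rw [h]; exact mu_mk_smul _ _ hc z
  have e4 : mu R1 (Φ z) = mu R1 z := by rw [h]; exact mu_mk_smul _ _ hc z
  have e5 : mu R2 (Φ z) = mu R2 z := by rw [h]; exact mu_mk_smul _ _ hc z
  have e6 : mu R3 (Φ z) = mu R3 z := by rw [h]; exact mu_mk_smul _ _ hc z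
  rw [Φ, T2_eq] at e1 e2 e3 e4 e5 e6
  rw [m2_L2] at e2
  rw [m2_R2] at e5
  rw [m2_L1, e2, e5] at e1
  rw [m2_L3, e2, e5] at e3
  rw [m2_R1, e2] at e4
  rw [m2_R3, e2] at e6
  rw [T1_eq] at e1 e2 e3 e4 e5 e6
  rw [m1_L1, m1_L3] at e1 e3
  rw [m1_L2] at e2
  rw [m1_R1, m1_R3] at e4 e6
  rw [m1_R2] at e5
  have uL := unit_L hz z4
  have uR := unit_R hz z4
  have bx := abs_mu_le gL1 hz
  have by' := abs_mu_le gR2 hz
  unfold Cond Sys
  generalize mu L1 z = x1 at *
  generalize mu L2 z = x2 at *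
  generalize mu L3 z = x3 at *
  generalize mu R1 z = y1 at *
  generalize mu R2 z = y2 at *
  generalize mu R3 z = y3 at *
  have cθ2 := (cos_ang_pos x2 by').ne'
  have cη1 := (cos_ang_pos y1 bx).ne'
  have hX := sphere_fwd (cos_sq_add_sin_sq _) (cos_sq_add_sin_sq _) (cos_pa _) cθ2 e2 e1 e3
  have hY := sphere_fwd (cos_sq_add_sin_sq _) (cos_sq_add_sin_sq _) cη1
    (cos_arctan_pos _).ne' e5 e4 e6
  have triv : x1 = 1 → y2 = 1 → ((x2 * y1 / 4 = x1 * tan (ang y2 x2) ∧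
      x2 * y1 / 4 = y2 * tan (ang x1 y1) ∧ x1 ^ 2 + x2 ^ 2 + (x2 * y1 / 4) ^ 2 = 1 ∧
      y2 ^ 2 + y1 ^ 2 + (x2 * y1 / 4) ^ 2 = 1) ∧ x3 = -(x2 * y1 / 4) ∧ y3 = -(x2 * y1 / 4)) := by
    rintro rfl rfl
    obtain ⟨rfl, rfl⟩ := unit_one uL
    obtain ⟨rfl, rfl⟩ := unit_two uR
    simp [ang]
  clear e1 e2 e3 e4 e5 e6
  rcases hX with ⟨hX1, hX2⟩ | ⟨hX1, hX2⟩
  · rcases hY with ⟨hY1, hY2⟩ | ⟨hY1, hY2⟩
    · rw [tan_form (cos_pa _) (sin_pa _)] at hX1
      rw [tan_form cθ2 (sin_eq_tan_mul cθ2)] at hX2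
      rw [tan_form cη1 (sin_eq_tan_mul cη1)] at hY1
      rw [tan_form (cos_arctan_pos _).ne' (sin_a _)] at hY2
      refine ⟨⟨by linarith, by linarith, ?_, ?_⟩, by linarith, by linarith⟩
      · rw [← uL, hX1]; ring
      · rw [← uR, hY2]; ring
    · have h1 := sin_ang_eq_zero bx hY1
      subst h1
      obtain ⟨rfl, rfl⟩ := unit_one uL
      exact triv rfl (sin_ang_eq_zero (v := 0) by' (by linarith))
  · have h1 := sin_ang_eq_zero by' hX2
    subst h1
    obtain ⟨rfl, rfl⟩ := unit_two uR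
    rcases hY with ⟨hY1, hY2⟩ | ⟨hY1, hY2⟩
    · exact triv (sin_ang_eq_zero (v := 0) bx (by linarith)) rfl
    · exact triv (sin_ang_eq_zero bx hY1) rfl

lemma fix_of_cond {z : E} (hz : z ∈ unitCone) (z4 : z 4 = 0) (h : Cond z) :
    ∃ c : ℂ, Φ z = c • z := by
  obtain ⟨⟨s1, s2, -, -⟩, s3, s4⟩ := h
  have bx := abs_mu_le gL1 hz
  have by' := abs_mu_le gR2 hz
  have cθ2 := (cos_ang_pos (mu L2 z) by').ne'
  have cη1 := (cos_ang_pos (mu R1 z) bx).ne'
  have hX1 := (tan_form (a := mu L3 z) (b := mu L2 z) (cos_pa (mu R1 z / 4)) (sin_pa _)).2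
    (by linarith)
  have hX2 := (tan_form (a := mu L3 z) (b := mu L1 z) cθ2 (sin_eq_tan_mul cθ2)).2 (by linarith)
  have hY1 := (tan_form (a := mu R3 z) (b := mu R2 z) cη1 (sin_eq_tan_mul cη1)).2 (by linarith)
  have hY2 := (tan_form (a := mu R3 z) (b := mu R1 z) (cos_arctan_pos (mu L2 z / 4)).ne'
    (sin_a _)).2 (by linarith)
  have e2 : mu L2 (b1.T 1 z) = mu L2 z := by
    rw [T1_eq, m1_L2]; exact sphere_bwd2 (cos_sq_add_sin_sq _) hX1
  have e5 : mu R2 (b1.T 1 z) = mu R2 z := by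
    rw [T1_eq, m1_R2]; exact sphere_bwd2 (cos_sq_add_sin_sq _) hY1
  have bX := sphere_bwd (cos_sq_add_sin_sq _) (cos_sq_add_sin_sq _) hX1 hX2
  have bY := sphere_bwd (cos_sq_add_sin_sq _) (cos_sq_add_sin_sq _) hY1 hY2
  unfold Φ
  refine ⟨_, line_of_mu hz (b2.T_mem (b1.T_mem hz)) z4 ?_ ?_ ?_ ?_ ?_ ?_ ?_⟩
  · simp only [Block.T_4, z4]
  · rw [T2_eq, m2_L1, e2, e5, T1_eq, m1_L1, m1_L3]; exact bX.1
  · rw [T2_eq, m2_L2, e2]
  · rw [T2_eq, m2_L3, e2, e5, T1_eq, m1_L1, m1_L3]; exact bX.2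
  · rw [T2_eq, m2_R1, e2, T1_eq, m1_R1, m1_R3]; exact bY.1
  · rw [T2_eq, m2_R2, e5]
  · rw [T2_eq, m2_R3, e2, T1_eq, m1_R1, m1_R3]; exact bY.2

lemma span_eq_of_smul {z w : E} (hz : z ∈ unitCone) (hw : w ∈ unitCone) {c : ℂ} (h : w = c • z) :
    Submodule.span ℂ {w} = Submodule.span ℂ {z} := by
  have hc := norm_of_smul hz hw h
  have : c ≠ 0 := by rintro rfl; simp at hc
  rw [h]
  exact Submodule.span_singleton_smul_eq (IsUnit.mk0 c this) z

lemma mu_eq_of_span {z w : E} (hz : z ∈ unitCone) (hw : w ∈ unitCone)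
    (h : Submodule.span ℂ {w} = Submodule.span ℂ {z}) : mu L2 w = mu L2 z := by
  have : w ∈ Submodule.span ℂ {z} := h ▸ Submodule.mem_span_singleton_self w
  obtain ⟨c, hc⟩ := Submodule.mem_span_singleton.1 this
  rw [← hc]
  exact mu_smul gL2 (norm_of_smul hz hw hc.symm) z

theorem ncard_fixed : (fixedLines (lift b1 b2)).ncard = 3 := by
  obtain ⟨p, q, hp, hq, hpq, hs⟩ := sys_solution
  have hS : Sys p q p q := (hs p q p q).2 (Or.inr (Or.inl ⟨rfl, rfl, rfl, rfl⟩))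
  have hu : p ^ 2 + q ^ 2 + (q * q / 4) ^ 2 = 1 := hS.2.2.1
  obtain ⟨za, ha, a4, a1, a2, a3, a5, a6, a7⟩ := exists_point (x1 := 1) (x2 := 0) (x3 := 0)
    (y1 := 0) (y2 := 1) (y3 := 0) (by norm_num) (by norm_num) (by norm_num)
  obtain ⟨zb, hb, b4, b1', b2', b3, b5, b6, b7⟩ := exists_point (x1 := p) (x2 := q)
    (x3 := -(q * q / 4)) (y1 := q) (y2 := p) (y3 := -(q * q / 4)) (by linarith) (by linarith)
    (by nlinarith [pow_pos (abs_pos.2 hpq) 2, sq_abs (p + q)])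
  obtain ⟨zc, hc, c4, c1, c2, c3, c5, c6, c7⟩ := exists_point (x1 := p) (x2 := -q)
    (x3 := -(q * q / 4)) (y1 := -q) (y2 := p) (y3 := -(q * q / 4)) (by linarith) (by linarith)
    (by nlinarith [mul_pos (neg_pos.2 hp) hq, sq_nonneg p, sq_nonneg q])
  have mem : ∀ z ∈ unitCone, z 4 = 0 → Cond z →
      Submodule.span ℂ {z} ∈ fixedLines (lift b1 b2) := by
    intro z hz z4 hC
    obtain ⟨c, hc⟩ := fix_of_cond hz z4 hC
    refine ⟨z, hz, rfl, ?_⟩
    rw [lift_one]
    exact Submodule.mem_span_singleton.2 ⟨c, hc.symm⟩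
  rw [Set.ncard_eq_three]
  refine ⟨Submodule.span ℂ {za}, Submodule.span ℂ {zb}, Submodule.span ℂ {zc}, ?_, ?_, ?_, ?_⟩
  · intro h; have := mu_eq_of_span hb ha h; linarith
  · intro h; have := mu_eq_of_span hc ha h; linarith
  · intro h; have := mu_eq_of_span hc hb h; linarith
  · ext ℓ
    simp only [Set.mem_insert_iff, Set.mem_singleton_iff]
    constructor
    · rintro ⟨z, hz, rfl, hfix⟩
      rw [lift_one] at hfix
      obtain ⟨c, hc'⟩ := Submodule.mem_span_singleton.1 hfix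
      have z4 := fix_4 hz hc'.symm
      obtain ⟨h1, h2, h3⟩ := cond_of_fix hz hc'.symm
      rcases (hs _ _ _ _).1 h1 with ⟨e1, e2, e3, e4⟩ | ⟨e1, e2, e3, e4⟩ | ⟨e1, e2, e3, e4⟩
      · left
        rw [e2, e4] at h2 h3
        exact span_eq_of_smul ha hz (line_of_mu ha hz a4 z4 (by linarith) (by linarith)
          (by linarith) (by linarith) (by linarith) (by linarith))
      · right; left
        rw [e2, e4] at h2 h3
        exact span_eq_of_smul hb hz (line_of_mu hb hz b4 z4 (by linarith) (by linarith)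
          (by linarith) (by linarith) (by linarith) (by linarith))
      · right; right
        rw [e2, e4] at h2 h3
        exact span_eq_of_smul hc hz (line_of_mu hc hz c4 z4 (by linarith) (by linarith)
          (by linarith) (by linarith) (by linarith) (by linarith))
    · rintro (rfl | rfl | rfl)
      · refine mem za ha a4 ?_
        unfold Cond
        rw [a1, a2, a3, a5, a6, a7]
        exact ⟨(hs _ _ _ _).2 (Or.inl ⟨rfl, rfl, rfl, rfl⟩), by norm_num, by norm_num⟩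
      · refine mem zb hb b4 ?_
        unfold Cond
        rw [b1', b2', b3, b5, b6, b7]
        exact ⟨hS, rfl, rfl⟩
      · refine mem zc hc c4 ?_
        unfold Cond
        rw [c1, c2, c3, c5, c6, c7]
        exact ⟨sys_neg hS, by ring, by ring⟩

noncomputable def z0 : E := ![⟨1 / 2, 0⟩, ⟨0, 1 / 2⟩, ⟨0, 1 / 2⟩, ⟨-1 / 2, 0⟩, 0]

lemma Block.hasDerivAt_T_curve (b : Block) {γ : ℝ → E} {w : E} (hγ : HasDerivAt γ w 0)
    (hA : (herm (b.A (γ 0)) w).im = 0) (hB : (herm (b.B (γ 0)) w).im = 0) :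
    HasDerivAt (fun s => b.T 1 (γ s))
      (rot b.A (b.th (γ 0)) (rot b.B (b.et (γ 0)) w)) 0 := by
  have h1 := hasDerivAt_mu b.hA hγ
  have h2 := hasDerivAt_mu b.hB hγ
  rw [hA, mul_zero] at h1
  rw [hB, mul_zero] at h2
  have h3 := h1.prodMk h2
  have h4 : HasDerivAt (fun s => b.th (γ s)) 0 0 := by
    have := (b.sθ.differentiable (by simp) _).hasFDerivAt.comp_hasDerivAt (0 : ℝ) h3
    exact HasDerivAt.congr_deriv this (map_zero _)
  have h5 : HasDerivAt (fun s => b.et (γ s)) 0 0 := by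
    have := (b.sη.differentiable (by simp) _).hasFDerivAt.comp_hasDerivAt (0 : ℝ) h3
    exact HasDerivAt.congr_deriv this (map_zero _)
  have h6 := hasDerivAt_rot b.hA h4 (hasDerivAt_rot b.hB h5 hγ)
  simp only [Block.T, one_mul]
  refine HasDerivAt.congr_deriv h6 ?_
  simp

theorem degenerate : HasDegenerateFixedPoint (lift b1 b2) := by
  have hz : z0 ∈ unitCone := by
    rw [mem_cone_iff]; simp [z0]; norm_num
  have x1 : mu L1 z0 = 1 := by simp [mu, herm_im, z0]; norm_num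
  have x2 : mu L2 z0 = 0 := by simp [mu, herm_im, z0]; norm_num
  have y1 : mu R1 z0 = 0 := by simp [mu, herm_im, z0]; norm_num
  have y2 : mu R2 z0 = 1 := by simp [mu, herm_im, z0]; norm_num
  have rpi : ∀ v : E, v 4 = 0 → rot L1 π v = (-1 : ℂ) • v := by
    intro v hv
    ext j; fin_cases j <;> simp [rot, rt_apply, hv] <;> ring
  have t1 : b1.T 1 z0 = (-1 : ℂ) • z0 := by
    rw [T1_eq, x1, y1]
    simp only [ang, zero_div, arctan_zero, add_zero, sub_self, zero_mul, rot_zero]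
    exact rpi _ (by simp [z0])
  have x2' : mu L2 ((-1 : ℂ) • z0) = 0 := by rw [mu_smul gL2 (by simp), x2]
  have y2' : mu R2 ((-1 : ℂ) • z0) = 1 := by rw [mu_smul gR2 (by simp), y2]
  have t2 : b2.T 1 (b1.T 1 z0) = (-1 : ℂ) • z0 := by
    rw [t1, T2_eq, x2', y2']
    simp [ang]
  refine ⟨z0, hz, -1, by rw [lift_one, t2], L2 z0, ?_, ?_, 0, ?_⟩
  · constructor
    · simp [herm_re, z0]
    · simp [Fin.sum_univ_five, z0, Complex.ext_iff]; norm_num
  · intro r h
    have h0 := congrArg Complex.im (congrFun h 0)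
    have h1 := congrArg Complex.re (congrFun h 1)
    simp [z0] at h0 h1
    linarith
  · simp only [lift_one]
    apply fderiv_apply_of_line
    · exact (b2.contDiff_T contDiff_const (b1.contDiff_T contDiff_const contDiff_id)).differentiable
        (by simp) z0
    · have hl : HasDerivAt (fun s : ℝ => z0 + s • L2 z0) (L2 z0) 0 := by
        simpa using ((hasDerivAt_id (0 : ℝ)).smul_const (L2 z0)).const_add z0
      have d1 := b1.hasDerivAt_T_curve hl
        (by simp [b1, herm_im, z0]) (by simp [b1, herm_im, z0])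
      have v1 : rot b1.A (b1.th (z0 + (0 : ℝ) • L2 z0)) (rot b1.B (b1.et (z0 + (0 : ℝ) • L2 z0))
          (L2 z0)) = (-1 : ℂ) • L2 z0 := by
        simp only [zero_smul, add_zero, Block.th, Block.et, b1, x1, y1, ang, zero_div, arctan_zero,
          sub_self, zero_mul, rot_zero]
        exact rpi _ (by simp)
      rw [v1] at d1
      have d2 := b2.hasDerivAt_T_curve d1
        (by simp only [zero_smul, add_zero, t1]; simp [b2, herm_im, z0])
        (by simp only [zero_smul, add_zero, t1]; simp [b2, herm_im, z0])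
      refine HasDerivAt.congr_deriv d2 ?_
      simp only [zero_smul, add_zero, t1, Block.th, Block.et, b2, x2', y2', ang, zero_div,
        arctan_zero, sub_self, zero_mul, rot_zero]
      simp

end Crest.Agent.H0316
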